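import Vale.Agent.P157.Casc.Defs

/-!
Rules for averages over replicas, and the transfer of the overlap identities from the powers of a
kernel to continuous functions of it.
-/

open MeasureTheory Filter Topology Set

namespace Vale.Agent.P157.Casc

section Avg

variable {T : Type*} [Fintype T] {u : T → ℝ}

theorem gibbs_nonneg' (hu : ∀ x, 0 < u x) (x : T) : 0 ≤ gibbs u x :=
  div_nonneg (hu x).le (Finset.sum_nonneg fun y _ => (hu y).le)

theorem gibbs_sum' [Nonempty T] (hu : ∀ x, 0 < u x) : ∑ x, gibbs u x = 1 := by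
  rw [show ∑ x, gibbs u x = (∑ x, u x) / ∑ y, u y from (Finset.sum_div ..).symm]
  exact div_self (Finset.sum_pos (fun x _ => hu x) Finset.univ_nonempty).ne'

theorem avg_zero' (F : (Fin 0 → T) → ℝ) : avg u 0 F = F Fin.elim0 := by
  simp [avg, Subsingleton.elim default (Fin.elim0 : Fin 0 → T)]

theorem avg_cons' (n : ℕ) (F : (Fin (n + 1) → T) → ℝ) :
    avg u (n + 1) F = ∑ a, gibbs u a * avg u n (fun x => F (Fin.cons a x)) := by
  simp only [avg]
  rw [← Equiv.sum_comp (Fin.consEquiv fun _ => T), Fintype.sum_prod_type]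
  refine Finset.sum_congr rfl fun a _ => ?_
  rw [Finset.mul_sum]
  refine Finset.sum_congr rfl fun x _ => ?_
  simp [Fin.consEquiv, Fin.prod_univ_succ, mul_assoc]

theorem avg_snoc' (n : ℕ) (F : (Fin (n + 1) → T) → ℝ) :
    avg u (n + 1) F = avg u n (fun x => ∑ b, gibbs u b * F (Fin.snoc x b)) := by
  simp only [avg]
  rw [← Equiv.sum_comp (Fin.snocEquiv fun _ => T), Fintype.sum_prod_type, Finset.sum_comm]
  refine Finset.sum_congr rfl fun x _ => ?_
  rw [Finset.mul_sum]
  refine Finset.sum_congr rfl fun b _ => ?_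
  simp [Fin.snocEquiv, Fin.prod_univ_castSucc, mul_assoc]

theorem avg_append' (a b : ℕ) (F : (Fin (a + b) → T) → ℝ) :
    avg u (a + b) F = avg u a (fun x => avg u b (fun y => F (Fin.append x y))) := by
  simp only [avg]
  rw [← Equiv.sum_comp (Fin.appendEquiv a b), Fintype.sum_prod_type]
  refine Finset.sum_congr rfl fun x _ => ?_
  rw [Finset.mul_sum]
  refine Finset.sum_congr rfl fun y _ => ?_
  simp [Fin.appendEquiv, Fin.prod_univ_add, mul_assoc]

theorem avg_prod' (m : ℕ) (g : Fin m → T → ℝ) :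
    avg u m (fun y => ∏ i, g i (y i)) = ∏ i, ∑ x, gibbs u x * g i x := by
  simp only [avg, ← Finset.prod_mul_distrib]
  rw [Fintype.prod_sum]

theorem avg_perm' {n : ℕ} (e : Equiv.Perm (Fin n)) (F : (Fin n → T) → ℝ) :
    avg u n (fun x => F (x ∘ e)) = avg u n F := by
  simp only [avg]
  refine Fintype.sum_equiv (Equiv.arrowCongr e.symm (Equiv.refl T)) _ _ fun x => ?_
  have : (Equiv.arrowCongr e.symm (Equiv.refl T)) x = x ∘ e := by
    funext i; simp [Equiv.arrowCongr]
  rw [this]
  congr 1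
  exact (Equiv.prod_comp e fun i => gibbs u (x i)).symm

theorem avg_smul' (n : ℕ) (c : ℝ) (F : (Fin n → T) → ℝ) :
    avg u n (fun x => c * F x) = c * avg u n F := by
  simp only [avg, Finset.mul_sum, mul_left_comm c]

theorem avg_add' (n : ℕ) (F H : (Fin n → T) → ℝ) :
    avg u n (fun x => F x + H x) = avg u n F + avg u n H := by
  simp only [avg, mul_add, Finset.sum_add_distrib]

theorem avg_sub' (n : ℕ) (F H : (Fin n → T) → ℝ) :
    avg u n (fun x => F x - H x) = avg u n F - avg u n H := by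
  simp only [avg, mul_sub, Finset.sum_sub_distrib]

theorem avg_sum' {ι : Type*} (s : Finset ι) (n : ℕ) (F : ι → (Fin n → T) → ℝ) :
    avg u n (fun x => ∑ i ∈ s, F i x) = ∑ i ∈ s, avg u n (F i) := by
  simp only [avg, Finset.mul_sum]
  rw [Finset.sum_comm]

theorem avg_const' [Nonempty T] (hu : ∀ x, 0 < u x) (n : ℕ) (c : ℝ) :
    avg u n (fun _ => c) = c := by
  have := avg_prod' (u := u) n (fun _ _ => (1 : ℝ))
  simp only [mul_one, gibbs_sum' hu, Finset.prod_const_one] at this
  rw [show (fun _ : Fin n → T => c) = fun _ => c * 1 from by simp, avg_smul', this, mul_one]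

theorem avg_mono' (hu : ∀ x, 0 < u x) {n : ℕ} {F H : (Fin n → T) → ℝ} (h : ∀ x, F x ≤ H x) :
    avg u n F ≤ avg u n H :=
  Finset.sum_le_sum fun x _ =>
    mul_le_mul_of_nonneg_left (h x) (Finset.prod_nonneg fun _ _ => gibbs_nonneg' hu _)

theorem abs_avg' [Nonempty T] (hu : ∀ x, 0 < u x) {n : ℕ} {F : (Fin n → T) → ℝ} {B : ℝ}
    (h : ∀ x, |F x| ≤ B) : |avg u n F| ≤ B := by
  rw [abs_le]
  constructor
  · rw [← avg_const' hu n (-B)]; exact avg_mono' hu fun x => (abs_le.1 (h x)).1
  · rw [← avg_const' hu n B]; exact avg_mono' hu fun x => (abs_le.1 (h x)).2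

/-- A function of the first two replicas sees only two of them. -/
theorem avg_two' [Nonempty T] (hu : ∀ x, 0 < u x) (n : ℕ) (O : T → T → ℝ) :
    avg u (n + 2) (fun x => O (x 0) (x 1)) = avg u 2 (fun x => O (x 0) (x 1)) := by
  have : ∀ m, avg u (m + 2) (fun x => O (x 0) (x 1)) = ∑ a, gibbs u a * ∑ b, gibbs u b * O a b :=
    fun m => by
    rw [avg_cons']
    refine Finset.sum_congr rfl fun a _ => ?_
    rw [avg_cons']
    congr 1
    refine Finset.sum_congr rfl fun b _ => ?_
    have h1 : ∀ y : Fin m → T, Fin.cons (α := fun _ => T) a (Fin.cons b y) 1 = b := fun y => rfl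
    simp [h1, avg_const' hu]
  rw [this n, this 0]

end Avg

section EAvg

variable {T Ω : Type*} [Fintype T] [Nonempty T] [MeasurableSpace Ω] {μ : Measure Ω}
  [IsProbabilityMeasure μ] {u : Ω → T → ℝ}

theorem integrable_avg' (hm : ∀ x, Measurable fun ω => u ω x) (hp : ∀ ω x, 0 < u ω x) (n : ℕ)
    (F : (Fin n → T) → ℝ) : Integrable (fun ω => avg (u ω) n F) μ := by
  refine Integrable.of_bound (C := ∑ x, |F x|) ?_ (Eventually.of_forall fun ω => ?_)
  · exact (Finset.measurable_sum _ fun x _ =>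
      (Finset.measurable_prod _ fun i _ =>
        (hm _).div (Finset.measurable_sum _ fun y _ => hm y)).mul_const _).aestronglyMeasurable
  · exact abs_avg' (hp ω) fun x =>
      Finset.single_le_sum (fun y _ => abs_nonneg (F y)) (Finset.mem_univ x)

variable (hm : ∀ x, Measurable fun ω => u ω x) (hp : ∀ ω x, 0 < u ω x)
include hm hp

theorem eavg_add' (n : ℕ) (F H : (Fin n → T) → ℝ) :
    eavg μ u n (fun x => F x + H x) = eavg μ u n F + eavg μ u n H := by
  simp only [eavg, avg_add']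
  exact integral_add (integrable_avg' hm hp n F) (integrable_avg' hm hp n H)

theorem eavg_sub' (n : ℕ) (F H : (Fin n → T) → ℝ) :
    eavg μ u n (fun x => F x - H x) = eavg μ u n F - eavg μ u n H := by
  simp only [eavg, avg_sub']
  exact integral_sub (integrable_avg' hm hp n F) (integrable_avg' hm hp n H)

omit hm hp [Nonempty T] [IsProbabilityMeasure μ] in
theorem eavg_smul' (n : ℕ) (c : ℝ) (F : (Fin n → T) → ℝ) :
    eavg μ u n (fun x => c * F x) = c * eavg μ u n F := by
  simp only [eavg, avg_smul']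
  exact integral_const_mul ..

theorem eavg_sum' {ι : Type*} (s : Finset ι) (n : ℕ) (F : ι → (Fin n → T) → ℝ) :
    eavg μ u n (fun x => ∑ i ∈ s, F i x) = ∑ i ∈ s, eavg μ u n (F i) := by
  simp only [eavg, avg_sum']
  exact integral_finsetSum _ fun i _ => integrable_avg' hm hp n (F i)

theorem eavg_mono' {n : ℕ} {F H : (Fin n → T) → ℝ} (h : ∀ x, F x ≤ H x) :
    eavg μ u n F ≤ eavg μ u n H :=
  integral_mono (integrable_avg' hm hp n F) (integrable_avg' hm hp n H)
    fun ω => avg_mono' (hp ω) h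

omit hm in
theorem eavg_const' (n : ℕ) (c : ℝ) : eavg μ u n (fun _ => c) = c := by
  simp [eavg, avg_const' (hp _)]

theorem abs_eavg' {n : ℕ} {F : (Fin n → T) → ℝ} {B : ℝ} (h : ∀ x, |F x| ≤ B) :
    |eavg μ u n F| ≤ B := by
  rw [abs_le]
  constructor
  · rw [← eavg_const' (μ := μ) hp n (-B)]; exact eavg_mono' hm hp fun x => (abs_le.1 (h x)).1
  · rw [← eavg_const' (μ := μ) hp n B]; exact eavg_mono' hm hp fun x => (abs_le.1 (h x)).2

theorem ggDef_linear {ι : Type*} (s : Finset ι) (c : ι → ℝ) (S : ι → T → T → ℝ) (r : ℕ)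
    (F : (Fin (r + 1) → T) → ℝ) :
    ggDef μ u (fun x y => ∑ i ∈ s, c i * S i x y) r F = ∑ i ∈ s, c i * ggDef μ u (S i) r F := by
  simp only [ggDef, Finset.mul_sum, mul_left_comm _ (c _), eavg_sum' hm hp, eavg_smul']
  simp only [mul_sub, mul_div_assoc', mul_add, Finset.mul_sum, Finset.sum_sub_distrib,
    Finset.sum_add_distrib, ← Finset.sum_div]
  rw [Finset.sum_comm]

theorem abs_ggDef' {S : T → T → ℝ} {B : ℝ} (hS : ∀ x y, |S x y| ≤ B) {r : ℕ}
    {F : (Fin (r + 1) → T) → ℝ} (hF : ∀ x, |F x| ≤ 1) : |ggDef μ u S r F| ≤ 2 * B := by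
  have hB : ∀ {n : ℕ} (x : Fin n → T) (i j : Fin n) (y : Fin (r + 1) → T),
      |F y * S (x i) (x j)| ≤ B := fun x i j y => by
    rw [abs_mul]
    exact (mul_le_of_le_one_left (abs_nonneg _) (hF y)).trans (hS _ _)
  have h1 := abs_eavg' (μ := μ) hm hp fun x : Fin (r + 2) → T =>
    hB x 0 (Fin.last (r + 1)) (fun i => x i.castSucc)
  have h2 := abs_eavg' (μ := μ) (n := r + 1) hm hp hF
  have h3 := abs_eavg' (μ := μ) (n := 2) hm hp fun x => hS (x 0) (x 1)
  have h4 : |∑ l : Fin r, eavg μ u (r + 1) (fun x => F x * S (x 0) (x l.succ))| ≤ r * B := by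
    refine (Finset.abs_sum_le_sum_abs _ _).trans ((Finset.sum_le_sum fun l _ =>
      abs_eavg' (μ := μ) hm hp fun x => hB x 0 l.succ x).trans ?_)
    simp
  have h5 : |eavg μ u (r + 1) F * eavg μ u 2 (fun x => S (x 0) (x 1))| ≤ B := by
    rw [abs_mul]
    exact (mul_le_of_le_one_left (abs_nonneg _) h2).trans h3
  have hr : (0 : ℝ) < (r : ℝ) + 1 := by positivity
  refine (abs_sub _ _).trans ?_
  rw [abs_div, abs_of_pos hr, two_mul]
  refine add_le_add h1 ?_
  rw [div_le_iff₀ hr]
  linarith [(abs_add_le (eavg μ u (r + 1) F * eavg μ u 2 (fun x => S (x 0) (x 1)))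
    (∑ l : Fin r, eavg μ u (r + 1) (fun x => F x * S (x 0) (x l.succ)))), h4, h5]

omit hm in
theorem ggDef_one (r : ℕ) (F : (Fin (r + 1) → T) → ℝ) :
    ggDef μ u (fun _ _ => 1) r F = 0 := by
  have e : eavg μ u (r + 2) (fun x => F fun i => x i.castSucc) = eavg μ u (r + 1) F :=
    integral_congr_ae (Eventually.of_forall fun ω => by
      dsimp only
      rw [avg_snoc']
      simp [← Finset.sum_mul, gibbs_sum' (hp ω)])
  simp only [ggDef, mul_one, eavg_const' hp, e, Finset.sum_const, Finset.card_univ,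
    Fintype.card_fin, nsmul_eq_mul]
  field_simp
  ring

end EAvg

/-! ### Sequences of systems -/

/-- The identities hold in the limit for the kernel `H`, uniformly in the tests. -/
def GGSeq {T Ω : ℕ → Type} [∀ k, Fintype (T k)] [∀ k, MeasurableSpace (Ω k)]
    (μ : ∀ k, Measure (Ω k)) (u : ∀ k, Ω k → T k → ℝ) (H : ∀ k, T k → T k → ℝ) : Prop :=
  ∀ ε > (0 : ℝ), ∀ᶠ k in atTop, ∀ r (F : (Fin (r + 1) → T k) → ℝ), (∀ y, |F y| ≤ 1) →
    |ggDef (μ k) (u k) (H k) r F| ≤ ε

theorem ggSeq_comp {T Ω : ℕ → Type} [∀ k, Fintype (T k)] [∀ k, Nonempty (T k)]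
    [∀ k, MeasurableSpace (Ω k)] {μ : ∀ k, Measure (Ω k)} [∀ k, IsProbabilityMeasure (μ k)]
    {u : ∀ k, Ω k → T k → ℝ} (hm : ∀ k x, Measurable fun ω => u k ω x)
    (hp : ∀ k ω x, 0 < u k ω x) {S : ∀ k, T k → T k → ℝ} (hS : ∀ k x y, S k x y ∈ Icc (-1 : ℝ) 1)
    (hgg : ∀ j : ℕ, GGSeq μ u fun k x y => S k x y ^ (j + 1)) {h : ℝ → ℝ} (hh : Continuous h) :
    GGSeq μ u fun k x y => h (S k x y) := by
  intro ε hε
  obtain ⟨p, hpol⟩ := exists_polynomial_near_of_continuousOn (-1) 1 h hh.continuousOn (ε / 4)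
    (by positivity)
  set n := p.natDegree + 1
  have hev : ∀ j ∈ Finset.range n, ∀ᶠ k in atTop, ∀ r (F : (Fin (r + 1) → T k) → ℝ),
      (∀ y, |F y| ≤ 1) →
        |p.coeff j * ggDef (μ k) (u k) (fun x y => S k x y ^ j) r F| ≤ ε / (2 * n) := by
    intro j _
    cases j with
    | zero =>
      refine Eventually.of_forall fun k r F hF => ?_
      simp only [pow_zero, ggDef_one (hp k), mul_zero, abs_zero]
      positivity
    | succ j =>
      filter_upwards [hgg j (ε / (2 * n) / (|p.coeff (j + 1)| + 1)) (by positivity)] with k hk r F hF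
      rw [abs_mul]
      refine (mul_le_mul (le_add_of_nonneg_right zero_le_one) (hk r F hF) (abs_nonneg _)
        (by positivity)).trans_eq ?_
      field_simp
  filter_upwards [(Finset.range n).eventually_all.2 hev] with k hk r F hF
  have e : ggDef (μ k) (u k) (fun x y => h (S k x y)) r F
      = ggDef (μ k) (u k) (fun x y => h (S k x y) - p.eval (S k x y)) r F
        + ∑ j ∈ Finset.range n, p.coeff j * ggDef (μ k) (u k) (fun x y => S k x y ^ j) r F := by
    rw [← ggDef_linear (hm k) (hp k)]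
    have := ggDef_linear (μ := μ k) (hm k) (hp k) (Finset.univ : Finset Bool) (fun _ => (1 : ℝ))
      (fun b x y => if b then h (S k x y) - p.eval (S k x y) else p.eval (S k x y)) r F
    simp only [Fintype.sum_bool, one_mul, if_true, Bool.false_eq_true, if_false,
      sub_add_cancel] at this
    have he : (fun x y => ∑ j ∈ Finset.range n, p.coeff j * S k x y ^ j)
        = fun x y => p.eval (S k x y) := by
      funext x y; exact (Polynomial.eval_eq_sum_range _).symm
    rw [he]
    exact this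
  rw [e]
  refine (abs_add_le _ _).trans ?_
  have h1 := abs_ggDef' (μ := μ k) (hm k) (hp k) (B := ε / 4)
    (S := fun x y => h (S k x y) - p.eval (S k x y))
    (fun x y => by rw [abs_sub_comm]; exact (hpol _ (hS k x y)).le) hF
  have h2 : |∑ j ∈ Finset.range n, p.coeff j * ggDef (μ k) (u k) (fun x y => S k x y ^ j) r F|
      ≤ ε / 2 := by
    refine (Finset.abs_sum_le_sum_abs _ _).trans ((Finset.sum_le_sum fun j hj =>
      hk j hj r F hF).trans_eq ?_)
    rw [Finset.sum_const, Finset.card_range, nsmul_eq_mul]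
    have : (n : ℝ) ≠ 0 := by positivity
    field_simp
  linarith

end Vale.Agent.P157.Casc
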