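import Vale.Agent.P157.Casc.Ultra.Chain

/-!
Synchronisation: for a unit Gram kernel `R` and an ultrametric level `U` whose joint kernel obeys
the overlap identities, `R` is determined by `U` up to the mass of one level.
-/

open MeasureTheory Filter Topology Set

namespace Vale.Agent.P157.Casc

/-- Error of predicting `R` by the level. -/
noncomputable def syncErr {T Ω : Type} [Fintype T] [MeasurableSpace Ω] (μ : Measure Ω)
    (u : Ω → T → ℝ) {K : ℕ} (R : T → T → ℝ) (U : T → T → Fin (K + 1)) : ℝ :=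
  eavg μ u 2 fun x => |R (x 0) (x 1) -
    eavg μ u 2 (fun y => if U (y 0) (y 1) = U (x 0) (x 1) then R (y 0) (y 1) else 0) /
      eavg μ u 2 (fun y => if U (y 0) (y 1) = U (x 0) (x 1) then 1 else 0)|

/-- The clipped pieces of `x + 1`. -/
noncomputable def piece (γ : ℝ) (i : ℕ) (x : ℝ) : ℝ := max 0 (min γ (x - (-1 + γ * i)))

theorem sum_piece {γ : ℝ} (hγ : 0 ≤ γ) {x : ℝ} (hx : -1 ≤ x) (m : ℕ) :
    ∑ i ∈ Finset.range m, piece γ i x = min (x + 1) (γ * m) := by
  induction m with
  | zero => rw [Finset.sum_range_zero, Nat.cast_zero, mul_zero, min_eq_right (by linarith)]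
  | succ m ih =>
    rw [Finset.sum_range_succ, ih, piece, Nat.cast_add_one, mul_add, mul_one]
    rcases le_total (x + 1) (γ * m) with h | h
    · rw [min_eq_left h, max_eq_left (le_trans (min_le_right _ _) (by linarith)),
        min_eq_left (by linarith), add_zero]
    · rw [min_eq_right h, max_eq_right (le_min hγ (by linarith)), add_comm, ← min_add_add_right]
      rw [min_comm]
      congr 1 <;> ring

open Classical in
/-- A difference is counted by well separated thresholds. -/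
theorem sub_le_count {γ : ℝ} (hγ : 0 < γ) {m : ℕ} (hm : 2 ≤ γ * m) {r r' : ℝ} (hr : -1 ≤ r)
    (hr' : r' ≤ 1) :
    r' - r ≤ 2 * γ + γ * ∑ i ∈ Finset.range m,
      (if -1 + γ * i < r' ∧ r < -1 + γ * i - γ then (1 : ℝ) else 0) := by
  have hnn : 0 ≤ ∑ i ∈ Finset.range m,
      (if -1 + γ * i < r' ∧ r < -1 + γ * i - γ then (1 : ℝ) else 0) :=
    Finset.sum_nonneg fun i _ => by split_ifs <;> norm_num
  rcases le_total r' (r + 2 * γ) with h | h
  · linarith [mul_nonneg hγ.le hnn]
  have e1 := sum_piece hγ.le (show -1 ≤ r' by linarith) m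
  have e2 := sum_piece hγ.le (show -1 ≤ r + 2 * γ by linarith) m
  rw [min_eq_left (by linarith)] at e1
  rw [min_eq_left (by linarith)] at e2
  have : ∑ i ∈ Finset.range m, (piece γ i r' - piece γ i (r + 2 * γ))
      ≤ γ * ∑ i ∈ Finset.range m,
        (if -1 + γ * i < r' ∧ r < -1 + γ * i - γ then (1 : ℝ) else 0) := by
    rw [Finset.mul_sum]
    refine Finset.sum_le_sum fun i _ => ?_
    have p1 : piece γ i r' ≤ γ := max_le hγ.le (min_le_left _ _)
    have p0 : 0 ≤ piece γ i (r + 2 * γ) := le_max_left _ _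
    split_ifs with hi
    · linarith
    rcases not_and_or.1 hi with hi | hi
    · have : piece γ i r' = 0 := max_eq_left (le_trans (min_le_right _ _) (by linarith [not_lt.1 hi]))
      linarith
    · have : piece γ i (r + 2 * γ) = γ := by
        rw [piece, min_eq_left (by linarith [not_lt.1 hi]), max_eq_right hγ.le]
      linarith
  rw [Finset.sum_sub_distrib, e1, e2] at this
  linarith

open Classical in
theorem ind_and_le_left (a b c d : Prop) : (if a ∧ b then (1 : ℝ) else 0)
    ≤ (if b then 1 else 0) * (if a then 1 else 0) + (if c then 1 else 0) * (if d then 1 else 0) := by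
  by_cases ha : a <;> by_cases hb : b <;> by_cases hc : c <;> by_cases hd : d <;> simp [ha, hb, hc, hd]

open Classical in
theorem ind_and_le_right (a b c d : Prop) : (if a ∧ b then (1 : ℝ) else 0)
    ≤ (if c then 1 else 0) * (if d then 1 else 0) + (if a then 1 else 0) * (if b then 1 else 0) := by
  by_cases ha : a <;> by_cases hb : b <;> by_cases hc : c <;> by_cases hd : d <;> simp [ha, hb, hc, hd]

open Classical in
theorem ind_and_mem (a b : Prop) : (if a ∧ b then (1 : ℝ) else 0) ∈ Icc 0 (if a then 1 else 0) := by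
  by_cases ha : a <;> by_cases hb : b <;> simp [ha, hb]

section Static

variable {T Ω : Type} [Fintype T] [Nonempty T] [MeasurableSpace Ω] {μ : Measure Ω}
  [IsProbabilityMeasure μ] {u : Ω → T → ℝ} {K : ℕ} {R : T → T → ℝ} {U : T → T → Fin (K + 1)}

open Classical in
/-- The probability of the level `l` with `R` below `t - γ`. -/
noncomputable def lowP (μ : Measure Ω) (u : Ω → T → ℝ) (R : T → T → ℝ) (U : T → T → Fin (K + 1))
    (l : Fin (K + 1)) (γ t : ℝ) : ℝ :=
  eavg μ u 2 fun x => if U (x 0) (x 1) = l ∧ R (x 0) (x 1) < t - γ then 1 else 0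

open Classical in
/-- The probability of the level `l` with `R` above `t`. -/
noncomputable def highP (μ : Measure Ω) (u : Ω → T → ℝ) (R : T → T → ℝ) (U : T → T → Fin (K + 1))
    (l : Fin (K + 1)) (t : ℝ) : ℝ :=
  eavg μ u 2 fun x => if U (x 0) (x 1) = l ∧ t < R (x 0) (x 1) then 1 else 0

variable (hm : ∀ x, Measurable fun ω => u ω x) (hp : ∀ ω x, 0 < u ω x)
include hm hp

/-- Deviation from the conditional mean on one set, by pairs. -/
theorem mean_dev_le {γ : ℝ} (hγ : 0 ≤ γ) {m : ℕ} (I r : (Fin 2 → T) → ℝ)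
    (lo hi : ℕ → (Fin 2 → T) → ℝ) (hI : ∀ x, I x ∈ Icc (0 : ℝ) 1) (hr : ∀ x, |r x| ≤ 1)
    (hlo : ∀ i x, lo i x ∈ Icc 0 (I x)) (hhi : ∀ i x, hi i x ∈ Icc 0 (I x))
    (hpair : ∀ x y, I x * (I y * |r x - r y|)
      ≤ I x * (2 * γ * I y) + γ * ∑ i ∈ Finset.range m, (lo i x * hi i y + hi i x * lo i y)) :
    eavg μ u 2 (fun x => I x * |r x - eavg μ u 2 (fun y => I y * r y) / eavg μ u 2 I|)
      ≤ 2 * γ * eavg μ u 2 I
        + 2 * γ * ∑ i ∈ Finset.range m, min (eavg μ u 2 (lo i)) (eavg μ u 2 (hi i)) := by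
  have hnn : ∀ {F : (Fin 2 → T) → ℝ}, (∀ x, 0 ≤ F x) → 0 ≤ eavg μ u 2 F := fun h => by
    rw [← eavg_const' (μ := μ) hp 2 (0 : ℝ)]; exact eavg_mono' hm hp h
  set P := eavg μ u 2 I with hP
  set q := eavg μ u 2 (fun y => I y * r y) / P with hq
  have hP0 : 0 ≤ P := hnn fun x => (hI x).1
  have ha : ∀ i, 0 ≤ eavg μ u 2 (lo i) ∧ eavg μ u 2 (lo i) ≤ P := fun i =>
    ⟨hnn fun x => (hlo i x).1, eavg_mono' hm hp fun x => (hlo i x).2⟩
  have hb : ∀ i, 0 ≤ eavg μ u 2 (hi i) ∧ eavg μ u 2 (hi i) ≤ P := fun i =>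
    ⟨hnn fun x => (hhi i x).1, eavg_mono' hm hp fun x => (hhi i x).2⟩
  rcases hP0.eq_or_lt with hz | hpos
  · have hmin0 : 0 ≤ 2 * γ * ∑ i ∈ Finset.range m, min (eavg μ u 2 (lo i)) (eavg μ u 2 (hi i)) :=
      mul_nonneg (by linarith) (Finset.sum_nonneg fun i _ => le_min (ha i).1 (hb i).1)
    have : eavg μ u 2 (fun x => I x * |r x - q|) ≤ (1 + |q|) * P := by
      rw [hP, ← eavg_smul']
      refine eavg_mono' hm hp fun x => ?_
      rw [mul_comm]
      exact mul_le_mul_of_nonneg_right ((abs_sub _ _).trans (add_le_add (hr x) le_rfl)) (hI x).1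
    rw [← hz, mul_zero] at this
    rw [← hz]
    linarith
  have hx : ∀ x, P * (I x * |r x - q|) ≤ 2 * γ * P * I x
      + γ * ∑ i ∈ Finset.range m, (eavg μ u 2 (hi i) * lo i x + eavg μ u 2 (lo i) * hi i x) := by
    intro x
    have e1 : P * (r x - q) = eavg μ u 2 (fun y => I y * (r x - r y)) := by
      simp only [mul_sub]
      rw [eavg_sub' hm hp, hq, mul_div_cancel₀ _ hpos.ne']
      congr 1
      simp only [mul_comm (I _) (r x), eavg_smul', ← hP]
      ring
    calc P * (I x * |r x - q|)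
        = I x * |P * (r x - q)| := by rw [abs_mul, abs_of_pos hpos]; ring
      _ ≤ I x * eavg μ u 2 (fun y => I y * |r x - r y|) := by
        rw [e1]
        refine mul_le_mul_of_nonneg_left (abs_le.2 ⟨?_, ?_⟩) (hI x).1
        · rw [neg_le, ← neg_one_mul, ← eavg_smul']
          exact eavg_mono' hm hp fun y => by
            rw [neg_one_mul, ← mul_neg]
            exact mul_le_mul_of_nonneg_left (neg_le_abs _) (hI y).1
        · exact eavg_mono' hm hp fun y => mul_le_mul_of_nonneg_left (le_abs_self _) (hI y).1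
      _ = eavg μ u 2 (fun y => I x * (I y * |r x - r y|)) := (eavg_smul' _ _ _).symm
      _ ≤ eavg μ u 2 (fun y => I x * (2 * γ * I y)
            + γ * ∑ i ∈ Finset.range m, (lo i x * hi i y + hi i x * lo i y)) :=
        eavg_mono' hm hp (hpair x)
      _ = _ := by
        simp only [eavg_add' hm hp, eavg_smul', eavg_sum' hm hp, ← hP]
        congr 1
        · ring
        · congr 1
          exact Finset.sum_congr rfl fun i _ => by ring
  have hmain : P * eavg μ u 2 (fun x => I x * |r x - q|) ≤ 2 * γ * P * P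
      + γ * ∑ i ∈ Finset.range m,
        (eavg μ u 2 (hi i) * eavg μ u 2 (lo i) + eavg μ u 2 (lo i) * eavg μ u 2 (hi i)) := by
    rw [← eavg_smul']
    refine (eavg_mono' hm hp hx).trans_eq ?_
    simp only [eavg_add' hm hp, eavg_smul', eavg_sum' hm hp, ← hP]
  refine le_of_mul_le_mul_left (hmain.trans ?_) hpos
  rw [mul_add, Finset.mul_sum, Finset.mul_sum, Finset.mul_sum]
  refine add_le_add (by linarith) (Finset.sum_le_sum fun i _ => ?_)
  have : eavg μ u 2 (lo i) * eavg μ u 2 (hi i)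
      ≤ P * min (eavg μ u 2 (lo i)) (eavg μ u 2 (hi i)) := by
    rcases min_cases (eavg μ u 2 (lo i)) (eavg μ u 2 (hi i)) with ⟨h, _⟩ | ⟨h, _⟩ <;> rw [h]
    · linarith [mul_le_mul_of_nonneg_left (hb i).2 (ha i).1]
    · linarith [mul_le_mul_of_nonneg_right (ha i).2 (hb i).1]
  linarith [mul_le_mul_of_nonneg_left this hγ]

open Classical in
/-- The error is controlled by the splitting of the levels at the thresholds. -/
theorem syncErr_le (hR : ∀ x y, R x y ∈ Icc (-1 : ℝ) 1) {γ : ℝ} (hγ : 0 < γ) {m : ℕ}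
    (hm2 : 2 ≤ γ * m) :
    syncErr μ u R U ≤ 2 * γ + 2 * γ * ∑ i ∈ Finset.range m, ∑ l,
      min (lowP μ u R U l γ (-1 + γ * i)) (highP μ u R U l (-1 + γ * i)) := by
  set I : Fin (K + 1) → (Fin 2 → T) → ℝ := fun l x => if U (x 0) (x 1) = l then 1 else 0 with hI
  set r : (Fin 2 → T) → ℝ := fun x => R (x 0) (x 1) with hr
  have hsumP : ∑ l, eavg μ u 2 (I l) = 1 := by
    rw [← eavg_sum' (μ := μ) hm hp,
      show (fun x => ∑ l, I l x) = fun _ : Fin 2 → T => (1 : ℝ) from funext fun x => by simp [hI]]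
    exact eavg_const' hp 2 1
  have hsync : syncErr μ u R U = ∑ l, eavg μ u 2
      (fun x => I l x * |r x - eavg μ u 2 (fun y => I l y * r y) / eavg μ u 2 (I l)|) := by
    rw [← eavg_sum' (μ := μ) hm hp, syncErr]
    congr 1
    funext x
    rw [Finset.sum_eq_single (U (x 0) (x 1)) (fun l _ hl => by simp [hI, hl.symm])
      (fun h => absurd (Finset.mem_univ _) h)]
    simp [hI, hr]
  have hrb : ∀ x, |r x| ≤ 1 := fun x => abs_le.2 (hR _ _)
  have key : ∀ l, eavg μ u 2
      (fun x => I l x * |r x - eavg μ u 2 (fun y => I l y * r y) / eavg μ u 2 (I l)|)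
      ≤ 2 * γ * eavg μ u 2 (I l) + 2 * γ * ∑ i ∈ Finset.range m,
        min (lowP μ u R U l γ (-1 + γ * i)) (highP μ u R U l (-1 + γ * i)) := by
    intro l
    refine mean_dev_le hm hp hγ.le (I l) r
      (fun i x => if U (x 0) (x 1) = l ∧ R (x 0) (x 1) < -1 + γ * i - γ then 1 else 0)
      (fun i x => if U (x 0) (x 1) = l ∧ -1 + γ * i < R (x 0) (x 1) then 1 else 0)
      (fun x => by simp only [hI]; split_ifs <;> simp) hrb
      (fun i x => by simp only [hI]; convert ind_and_mem _ _ using 3)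
      (fun i x => by simp only [hI]; convert ind_and_mem _ _ using 3) fun x y => ?_
    simp only [hI, hr]
    by_cases hx : U (x 0) (x 1) = l
    swap; · simp [hx]
    by_cases hy : U (y 0) (y 1) = l
    swap; · simp [hx, hy]
    simp only [hx, hy, if_true, true_and, one_mul, mul_one]
    rw [abs_le']
    constructor
    · refine (sub_le_count hγ hm2 (hR _ _).1 (hR _ _).2).trans (add_le_add le_rfl ?_)
      exact mul_le_mul_of_nonneg_left (Finset.sum_le_sum fun i _ => ind_and_le_right _ _ _ _) hγ.le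
    · rw [neg_sub]
      refine (sub_le_count hγ hm2 (hR _ _).1 (hR _ _).2).trans (add_le_add le_rfl ?_)
      exact mul_le_mul_of_nonneg_left (Finset.sum_le_sum fun i _ => ind_and_le_left _ _ _ _) hγ.le
  rw [hsync]
  refine (Finset.sum_le_sum fun l _ => key l).trans_eq ?_
  rw [Finset.sum_add_distrib, ← Finset.mul_sum, hsumP, ← Finset.mul_sum, Finset.sum_comm, mul_one]

end Static

/-! ### Sequences -/

section Seq

variable {T Ω : ℕ → Type} [∀ k, Fintype (T k)] [∀ k, Nonempty (T k)]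
  [∀ k, MeasurableSpace (Ω k)] {μ : ∀ k, Measure (Ω k)} [∀ k, IsProbabilityMeasure (μ k)]
  {u : ∀ k, Ω k → T k → ℝ} (hm : ∀ k x, Measurable fun ω => u k ω x)
  (hp : ∀ k ω x, 0 < u k ω x) {K : ℕ} {R : ∀ k, T k → T k → ℝ}
  {U : ∀ k, T k → T k → Fin (K + 1)}

/-- The joint kernel. -/
noncomputable def jointS {T : Type} {K : ℕ} (R : T → T → ℝ) (U : T → T → Fin (K + 1)) (x y : T) :
    ℝ :=
  (R x y + 3 * ((U x y : ℕ) : ℝ)) / ((3 * K + 1 : ℕ) : ℝ)

theorem unitGram_joint {T : Type} {K : ℕ} (hK : 0 < K) {R : T → T → ℝ}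
    {U : T → T → Fin (K + 1)} (hR : UnitGram R)
    (hU : UnitGram fun x y => ((U x y : ℕ) : ℝ) / K) : UnitGram (jointS R U) := by
  obtain ⟨d, v, hv, hv1⟩ := hR
  obtain ⟨d', w, hw, hw1⟩ := hU
  have hK' : (0 : ℝ) < K := Nat.cast_pos.2 hK
  set D : ℝ := ((3 * K + 1 : ℕ) : ℝ)
  have hD : 0 < D := by positivity
  have hsplit : ∀ x y, jointS R U x y
      = 1 / D * R x y + 3 * K / D * (((U x y : ℕ) : ℝ) / K) := fun x y => by
    simp only [jointS, D]; field_simp
  refine ⟨d + d', fun x => Fin.append (fun i => √(1 / D) * v x i)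
    (fun i => √(3 * K / D) * w x i), fun x y => ?_, fun x => ?_⟩
  · rw [hsplit, hv]
    beta_reduce at hw
    rw [hw, Fin.sum_univ_add]
    simp only [Fin.append_left, Fin.append_right, Finset.mul_sum]
    congr 1 <;> refine Finset.sum_congr rfl fun i _ => ?_
    · rw [mul_mul_mul_comm, Real.mul_self_sqrt (by positivity)]
    · rw [mul_mul_mul_comm, Real.mul_self_sqrt (by positivity)]
  · beta_reduce at hw1
    rw [hsplit, hv1, hw1]
    have : (D : ℝ) = 3 * K + 1 := by simp only [D]; push_cast; ring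
    field_simp
    linarith

/-- Selector of the level `l` on the range of the joint kernel. -/
noncomputable def levSel (K : ℕ) (l : ℕ) (s : ℝ) : ℝ :=
  max 0 (min 1 (2 - |((3 * K + 1 : ℕ) : ℝ) * s - 3 * l|))

theorem continuous_levSel (K l : ℕ) : Continuous (levSel K l) := by
  unfold levSel; fun_prop

theorem levSel_joint {T : Type} {K : ℕ} {R : T → T → ℝ} {U : T → T → Fin (K + 1)} {x y : T}
    (hR : R x y ∈ Icc (-1 : ℝ) 1) (l : Fin (K + 1)) :
    levSel K l (jointS R U x y) = if U x y = l then 1 else 0 := by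
  rw [levSel, jointS, mul_div_cancel₀ _ (by positivity)]
  split_ifs with h
  · have : |R x y + 3 * ((U x y : ℕ) : ℝ) - 3 * ((l : ℕ) : ℝ)| ≤ 1 := by
      rw [h, add_sub_cancel_right, abs_le]; exact hR
    rw [min_eq_left (by linarith), max_eq_right zero_le_one]
  · have hne : (U x y : ℕ) ≠ (l : ℕ) := fun he => h (Fin.ext he)
    have h2 : 2 ≤ |R x y + 3 * ((U x y : ℕ) : ℝ) - 3 * ((l : ℕ) : ℝ)| := by
      rcases lt_or_gt_of_ne hne with hlt | hgt
      · have : ((U x y : ℕ) : ℝ) + 1 ≤ ((l : ℕ) : ℝ) := by exact_mod_cast hlt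
        rw [abs_of_nonpos (by linarith [hR.2])]; linarith [hR.2]
      · have : ((l : ℕ) : ℝ) + 1 ≤ ((U x y : ℕ) : ℝ) := by exact_mod_cast hgt
        rw [abs_of_nonneg (by linarith [hR.1])]; linarith [hR.1]
    exact max_eq_left (le_trans (min_le_right _ _) (by linarith))

/-- The kernel `R` as a continuous function of the joint kernel. -/
noncomputable def recR (K : ℕ) (s : ℝ) : ℝ :=
  ∑ l : Fin (K + 1), levSel K l s * (((3 * K + 1 : ℕ) : ℝ) * s - 3 * ((l : ℕ) : ℝ))

theorem continuous_recR (K : ℕ) : Continuous (recR K) :=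
  continuous_finsetSum _ fun l _ => (continuous_levSel K l).mul (by fun_prop)

theorem recR_joint {T : Type} {K : ℕ} {R : T → T → ℝ} {U : T → T → Fin (K + 1)} {x y : T}
    (hR : R x y ∈ Icc (-1 : ℝ) 1) : recR K (jointS R U x y) = R x y := by
  rw [recR, Finset.sum_eq_single (U x y) (fun l _ hl => by
    rw [levSel_joint hR, if_neg hl.symm, zero_mul]) (fun h => absurd (Finset.mem_univ _) h),
    levSel_joint hR, if_pos rfl, jointS, mul_div_cancel₀ _ (by positivity)]
  ring

variable (hR : ∀ k, UnitGram (R k)) (hU : ∀ k, UnitGram fun x y => ((U k x y : ℕ) : ℝ) / K)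
  (hUmin : ∀ k x y z, min (U k x y) (U k y z) ≤ U k x z)
  (hgg : ∀ j : ℕ, GGSeq μ u fun k x y => jointS (R k) (U k) x y ^ (j + 1))

include hm hp hR hU hUmin hgg

open Classical in
/-- No pair of levels with decreasing overlap. -/
theorem rare_decrease (hK : 0 < K) {γ η : ℝ} (hγ : 0 < γ) (hγ1 : γ ≤ 1) (hη : 0 < η) :
    ∀ᶠ k in atTop, eavg (μ k) (u k) 3 (fun x =>
      if U k (x 0) (x 1) < U k (x 0) (x 2) ∧ R k (x 0) (x 2) + γ ≤ R k (x 0) (x 1)
        then (1 : ℝ) else 0) ≤ η := by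
  set D : ℝ := ((3 * K + 1 : ℕ) : ℝ) with hDdef
  have hD : 0 < D := by positivity
  have hS := fun k => unitGram_joint hK (hR k) (hU k)
  have hRgg : ∀ j : ℕ, GGSeq μ u fun k x y => R k x y ^ (j + 1) := fun j => by
    have h := ggSeq_comp hm hp (fun k => (hS k).mem) hgg
      (h := fun s => recR K s ^ (j + 1)) ((continuous_recR K).pow _)
    refine fun ε hε => (h ε hε).mono fun k hk => ?_
    simpa only [recR_joint ((hR k).mem _ _)] using hk
  have u1 := ultra_of_gg hm hp hR hRgg (γ := γ / 2) (by linarith) (show 0 < η / 3 by linarith)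
  have u2 := ultra_of_gg hm hp hS hgg (γ := γ / 2 / D) (by positivity) (show 0 < η / 3 by linarith)
  filter_upwards [u1, u2] with k h1 h2
  set B1 : (Fin 3 → T k) → ℝ := fun x =>
    if R k (x 0) (x 1) + γ / 2 ≤ R k (x 0) (x 2) ∧ R k (x 0) (x 1) + γ / 2 ≤ R k (x 1) (x 2)
      then (1 : ℝ) else 0
  set B2 : (Fin 3 → T k) → ℝ := fun x =>
    if jointS (R k) (U k) (x 0) (x 1) + γ / 2 / D ≤ jointS (R k) (U k) (x 0) (x 2) ∧
      jointS (R k) (U k) (x 0) (x 1) + γ / 2 / D ≤ jointS (R k) (U k) (x 1) (x 2)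
      then (1 : ℝ) else 0
  set π₁ : Equiv.Perm (Fin 3) := Equiv.swap 1 2
  set π₂ : Equiv.Perm (Fin 3) := finRotate 3
  refine (eavg_mono' (hm k) (hp k) (H := fun x => B2 x + (B2 (x ∘ π₂) + B1 (x ∘ π₁)))
    fun x => ?_).trans ?_
  · have n1 : ∀ y, 0 ≤ B1 y := fun y => by simp only [B1]; split_ifs <;> norm_num
    have n2 : ∀ y, 0 ≤ B2 y := fun y => by simp only [B2]; split_ifs <;> norm_num
    split_ifs with hA
    swap; · linarith [n2 x, n2 (x ∘ π₂), n1 (x ∘ π₁)]
    obtain ⟨hu, hr⟩ := hA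
    have hUsym : ∀ a b, U k a b = U k b a := fun a b => by
      have hK' : (K : ℝ) ≠ 0 := Nat.cast_ne_zero.2 hK.ne'
      exact Fin.ext (by exact_mod_cast (div_left_inj' hK').1 ((hU k).symm a b))
    have hu2 : U k (x 1) (x 2) = U k (x 0) (x 1) := by
      have a1 := hUmin k (x 1) (x 0) (x 2)
      have a2 := hUmin k (x 0) (x 2) (x 1)
      rw [hUsym (x 1) (x 0), min_eq_left hu.le] at a1
      rw [hUsym (x 2) (x 1)] at a2
      rcases le_total (U k (x 0) (x 2)) (U k (x 1) (x 2)) with h | h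
      · rw [min_eq_left h] at a2; exact absurd (a2.trans_lt hu) (lt_irrefl _)
      · rw [min_eq_right h] at a2; exact le_antisymm a2 a1
    have hu' : ((U k (x 0) (x 1) : ℕ) : ℝ) + 1 ≤ ((U k (x 0) (x 2) : ℕ) : ℝ) := by
      exact_mod_cast hu
    have m01 := (hR k).mem (x 0) (x 1)
    have m02 := (hR k).mem (x 0) (x 2)
    have m12 := (hR k).mem (x 1) (x 2)
    have hsR := (hR k).symm
    have hsS := (hS k).symm
    have hle : ∀ a b c d : T k, jointS (R k) (U k) a b + γ / 2 / D ≤ jointS (R k) (U k) c d ↔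
        R k a b + 3 * ((U k a b : ℕ) : ℝ) + γ / 2 ≤ R k c d + 3 * ((U k c d : ℕ) : ℝ) :=
      fun a b c d => by simp only [jointS, ← hDdef, ← add_div, div_le_div_iff_of_pos_right hD]
    rcases le_or_gt (R k (x 0) (x 1) + γ / 2) (R k (x 1) (x 2)) with hc | hc
    · have : B2 x = 1 := if_pos ⟨(hle _ _ _ _).2 (by linarith [m01.2, m02.1]),
        (hle _ _ _ _).2 (by rw [hu2]; linarith)⟩
      linarith [n2 (x ∘ π₂), n1 (x ∘ π₁)]
    rcases le_or_gt (R k (x 1) (x 2) + γ / 2) (R k (x 0) (x 1)) with hd | hd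
    · have e0 : (x ∘ π₂) 0 = x 1 := by simp [π₂]
      have e1 : (x ∘ π₂) 1 = x 2 := by simp [π₂]
      have e2 : (x ∘ π₂) 2 = x 0 := by simp [π₂]
      have : B2 (x ∘ π₂) = 1 := by
        simp only [B2, e0, e1, e2]
        rw [hsS (x 1) (x 0), hsS (x 2) (x 0)]
        refine if_pos ⟨(hle _ _ _ _).2 (by rw [hu2]; linarith), (hle _ _ _ _).2 ?_⟩
        rw [hu2]; linarith [m12.2, m02.1]
      linarith [n2 x, n1 (x ∘ π₁)]
    · have e0 : (x ∘ π₁) 0 = x 0 := by simp [π₁, Equiv.swap_apply_def]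
      have e1 : (x ∘ π₁) 1 = x 2 := by simp [π₁]
      have e2 : (x ∘ π₁) 2 = x 1 := by simp [π₁]
      have : B1 (x ∘ π₁) = 1 := by
        simp only [B1, e0, e1, e2]
        rw [hsR (x 2) (x 1)]
        exact if_pos ⟨by linarith, by linarith⟩
      linarith [n2 x, n2 (x ∘ π₂)]
  · rw [eavg_add' (hm k) (hp k), eavg_add' (hm k) (hp k),
      show eavg (μ k) (u k) 3 (fun x => B2 (x ∘ π₂)) = eavg (μ k) (u k) 3 B2 by
        simp only [eavg, avg_perm'],
      show eavg (μ k) (u k) 3 (fun x => B1 (x ∘ π₁)) = eavg (μ k) (u k) 3 B1 by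
        simp only [eavg, avg_perm']]
    linarith [show eavg (μ k) (u k) 3 B1 ≤ η / 3 from h1, show eavg (μ k) (u k) 3 B2 ≤ η / 3 from h2]

open Classical in
/-- The product form of monotonicity. -/
theorem split_small (hK : 0 < K) {γ η : ℝ} (hγ : 0 < γ) (hγ1 : γ ≤ 1) (hη : 0 < η) (t : ℝ) :
    ∀ᶠ k in atTop, ∀ l l' : Fin (K + 1), l < l' →
      highP (μ k) (u k) (R k) (U k) l t * lowP (μ k) (u k) (R k) (U k) l' γ t ≤ η := by
  have hS := fun k => unitGram_joint hK (hR k) (hU k)
  set D : ℝ := ((3 * K + 1 : ℕ) : ℝ) with hDdef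
  set h : Fin (K + 1) → ℝ → ℝ := fun l' s => levSel K l' s *
    max 0 (min 1 ((t - γ / 2 - (D * s - 3 * ((l' : ℕ) : ℝ))) / (γ / 2)))
  have hc : ∀ l', Continuous (h l') := fun l' => (continuous_levSel K l').mul (by fun_prop)
  have hdef : ∀ᶠ k in atTop, ∀ l' : Fin (K + 1), ∀ r (F : (Fin (r + 1) → T k) → ℝ),
      (∀ y, |F y| ≤ 1) →
        |ggDef (μ k) (u k) (fun x y => h l' (jointS (R k) (U k) x y)) r F| ≤ η / 8 :=
    eventually_all.2 fun l' =>
      ggSeq_comp hm hp (fun k => (hS k).mem) hgg (hc l') (η / 8) (by linarith)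
  filter_upwards [hdef, rare_decrease hm hp hR hU hUmin hgg hK (γ := γ / 2) (by linarith)
    (by linarith) (show 0 < η / 4 by linarith)] with k hk hrare l l' hll
  set F : (Fin 2 → T k) → ℝ := fun x => if U k (x 0) (x 1) = l ∧ t < R k (x 0) (x 1) then 1 else 0
  set H : T k → T k → ℝ := fun x y => h l' (jointS (R k) (U k) x y)
  have hH : ∀ x y, H x y = (if U k x y = l' then 1 else 0)
      * max 0 (min 1 ((t - γ / 2 - R k x y) / (γ / 2))) := by
    intro x y
    simp only [H, h]
    rw [levSel_joint ((hR k).mem x y)]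
    split_ifs with he
    · congr 4
      rw [jointS, ← hDdef, mul_div_cancel₀ _ (by positivity), he]
      ring
    · simp
  have hH0 : ∀ x y, 0 ≤ H x y := fun x y => by
    rw [hH]; exact mul_nonneg (by split_ifs <;> norm_num) (le_max_left _ _)
  have hF : ∀ y, |F y| ≤ 1 := fun y => by simp only [F]; split_ifs <;> norm_num
  have hd := hk l' 1 F hF
  simp only [ggDef, Fin.sum_univ_one, Nat.cast_one] at hd
  have hlow : lowP (μ k) (u k) (R k) (U k) l' γ t
      ≤ eavg (μ k) (u k) 2 (fun x => H (x 0) (x 1)) := by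
    refine eavg_mono' (hm k) (hp k) fun x => ?_
    split_ifs with hx
    swap; · exact hH0 _ _
    rw [hH, if_pos hx.1, one_mul]
    have : 1 ≤ (t - γ / 2 - R k (x 0) (x 1)) / (γ / 2) := by
      rw [le_div_iff₀ (by linarith)]; linarith [hx.2]
    rw [min_eq_left this, max_eq_right zero_le_one]
  have hb0 : 0 ≤ eavg (μ k) (u k) 2 F := by
    rw [← eavg_const' (μ := μ k) (hp k) 2 (0 : ℝ)]
    exact eavg_mono' (hm k) (hp k) fun x => by simp only [F]; split_ifs <;> norm_num
  have hsame : 0 ≤ eavg (μ k) (u k) 2 (fun x => F x * H (x 0) (x (Fin.succ 0))) := by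
    rw [← eavg_const' (μ := μ k) (hp k) 2 (0 : ℝ)]
    exact eavg_mono' (hm k) (hp k) fun x =>
      mul_nonneg (by simp only [F]; split_ifs <;> norm_num) (hH0 _ _)
  have hthree : eavg (μ k) (u k) 3
      (fun x => F (fun i => x i.castSucc) * H (x 0) (x (Fin.last 2))) ≤ η / 4 := by
    refine le_trans (eavg_mono' (hm k) (hp k) fun x => ?_) hrare
    have hn : ∀ (p : Prop) [Decidable p], (0 : ℝ) ≤ if p then 1 else 0 := fun p _ => by
      split_ifs <;> norm_num
    by_cases hz : F (fun i => x i.castSucc) * H (x 0) (x (Fin.last 2)) = 0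
    · rw [hz]; exact hn _
    obtain ⟨hz1, hz2⟩ := mul_ne_zero_iff.1 hz
    simp only [F, ne_eq, ite_eq_right_iff, one_ne_zero, imp_false, not_not] at hz1
    rw [hH] at hz2
    obtain ⟨hz3, hz4⟩ := mul_ne_zero_iff.1 hz2
    simp only [ne_eq, ite_eq_right_iff, one_ne_zero, imp_false, not_not] at hz3
    obtain ⟨a1, a2⟩ := hz1
    change U k (x 0) (x 1) = l at a1
    change t < R k (x 0) (x 1) at a2
    change U k (x 0) (x 2) = l' at hz3
    have a3 : R k (x 0) (x 2) < t - γ / 2 := by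
      by_contra hge
      refine hz4 (max_eq_left (le_trans (min_le_right _ _) ?_))
      exact div_nonpos_of_nonpos_of_nonneg
        (by linarith [show t - γ / 2 ≤ R k (x 0) (x (Fin.last 2)) from not_lt.1 hge]) (by linarith)
    rw [if_pos ⟨by rw [a1, hz3]; exact hll, by linarith⟩]
    refine mul_le_one₀ (le_of_abs_le (hF fun i => x i.castSucc)) (hH0 _ _) ?_
    rw [hH]
    exact mul_le_one₀ (by split_ifs <;> norm_num) (le_max_left _ _)
      (max_le zero_le_one (min_le_left _ _))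
  have h2 := (abs_le.1 hd).1
  have hprod := mul_le_mul_of_nonneg_left hlow hb0
  simp only [H] at hthree hsame hprod
  change eavg (μ k) (u k) 2 F * _ ≤ η
  linarith

open Classical in
/-- Synchronisation. -/
theorem sync_error (hK : 0 < K)
    (hlev : ∀ l : Fin (K + 1), ∀ᶠ k in atTop,
      eavg (μ k) (u k) 2 (fun y => if U k (y 0) (y 1) = l then (1 : ℝ) else 0) ≤ 2 * pi0 K)
    {ε : ℝ} (hε : 0 < ε) :
    ∀ᶠ k in atTop, syncErr (μ k) (u k) (R k) (U k) ≤ 26 * pi0 K + ε := by
  set γ := pi0 K with hγdef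
  have hγ : 0 < γ := by rw [hγdef, pi0]; positivity
  have hγ1 : γ ≤ 1 := by
    rw [hγdef, pi0, div_le_one (by positivity)]; linarith [Nat.cast_nonneg (α := ℝ) K]
  set m := ⌈2 / γ⌉₊ + 1
  have hm2 : 2 ≤ γ * m := by
    have : 2 / γ ≤ m := by
      simp only [m]; push_cast; linarith [Nat.le_ceil (2 / γ)]
    rw [div_le_iff₀ hγ] at this
    linarith
  have hm6 : γ * m ≤ 6 := by
    have : (m : ℝ) ≤ 2 / γ + 2 := by
      simp only [m]; push_cast; linarith [Nat.ceil_lt_add_one (show 0 ≤ 2 / γ by positivity)]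
    have h2 := mul_le_mul_of_nonneg_left this hγ.le
    rw [mul_add, mul_div_cancel₀ _ hγ.ne'] at h2
    linarith
  set η := ε / (12 * ((K : ℝ) + 1)) with hηdef
  have hη : 0 < η := by positivity
  have hsplit : ∀ i ∈ Finset.range m, ∀ᶠ k in atTop, ∀ l l' : Fin (K + 1), l < l' →
      highP (μ k) (u k) (R k) (U k) l (-1 + γ * i)
        * lowP (μ k) (u k) (R k) (U k) l' γ (-1 + γ * i) ≤ η ^ 2 :=
    fun i _ => split_small hm hp hR hU hUmin hgg hK hγ hγ1 (by positivity) _
  filter_upwards [(Finset.range m).eventually_all.2 hsplit, eventually_all.2 hlev] with k hk hl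
  refine (syncErr_le (hm k) (hp k) (hR k).mem hγ hm2).trans ?_
  have hrow : ∀ i ∈ Finset.range m, ∑ l, min (lowP (μ k) (u k) (R k) (U k) l γ (-1 + γ * i))
      (highP (μ k) (u k) (R k) (U k) l (-1 + γ * i)) ≤ 2 * γ + ((K : ℝ) + 1) * η := by
    intro i hi
    set f : Fin (K + 1) → ℝ := fun l => min (lowP (μ k) (u k) (R k) (U k) l γ (-1 + γ * i))
      (highP (μ k) (u k) (R k) (U k) l (-1 + γ * i))
    have hle : ∀ l, f l ≤ 2 * γ := fun l => (min_le_left _ _).trans
      ((eavg_mono' (hm k) (hp k) fun x => by split_ifs <;> simp_all).trans (hl l))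
    by_cases hbig : ∃ l, η < f l
    · obtain ⟨l, hl'⟩ := hbig
      have hoth : ∀ l', l' ≠ l → f l' ≤ η := by
        intro l' hne
        by_contra hgt
        rw [not_le] at hgt
        rcases lt_or_gt_of_ne hne with h | h
        · have := mul_le_mul (hgt.le.trans (min_le_right _ _)) (hl'.le.trans (min_le_left _ _))
            hη.le ((hη.le.trans hgt.le).trans (min_le_right _ _))
          have h2 := hk i hi l' l h
          have h3 := mul_lt_mul (hgt.trans_le (min_le_right _ _))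
            (hl'.le.trans (min_le_left _ _)) hη ((hη.le.trans hgt.le).trans (min_le_right _ _))
          nlinarith
        · have h2 := hk i hi l l' h
          have h3 := mul_lt_mul (hl'.trans_le (min_le_right _ _))
            (hgt.le.trans (min_le_left _ _)) hη ((hη.le.trans hl'.le).trans (min_le_right _ _))
          nlinarith
      rw [← Finset.add_sum_erase _ _ (Finset.mem_univ l)]
      refine add_le_add (hle l) ((Finset.sum_le_card_nsmul _ _ η fun l' hl'' =>
        hoth l' (Finset.ne_of_mem_erase hl'')).trans ?_)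
      rw [nsmul_eq_mul]
      refine mul_le_mul_of_nonneg_right ?_ hη.le
      have := Finset.card_erase_le (s := (Finset.univ : Finset (Fin (K + 1)))) (a := l)
      simp only [Finset.card_univ, Fintype.card_fin] at this
      exact_mod_cast this
    · push Not at hbig
      refine (Finset.sum_le_card_nsmul _ _ η fun l _ => hbig l).trans ?_
      simp only [Finset.card_univ, Fintype.card_fin, nsmul_eq_mul, Nat.cast_add, Nat.cast_one]
      linarith
  have hsum := (Finset.sum_le_sum hrow).trans_eq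
    (by rw [Finset.sum_const, Finset.card_range, nsmul_eq_mul])
  have h1 := mul_le_mul_of_nonneg_left hsum (show 0 ≤ 2 * γ by linarith)
  have h2 := mul_le_mul_of_nonneg_right hm6 (show 0 ≤ 2 * (2 * γ + ((K : ℝ) + 1) * η) by positivity)
  have h3 : 12 * (((K : ℝ) + 1) * η) = ε := by rw [hηdef]; field_simp
  linarith

end Seq

end Vale.Agent.P157.Casc
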