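import Vale.Agent.P157.Casc.Ultra.Dup

/-!
Asymptotic ultrametricity from the overlap identities: a triangle with a single smallest side would
give, by repeated duplication, two large clusters of unit vectors with the same mean but different
inner products with a third vector.
-/

open MeasureTheory Filter Topology Set

namespace Vale.Agent.P157.Casc

/-- A kernel given by unit vectors. -/
def UnitGram {T : Type} (S : T → T → ℝ) : Prop :=
  ∃ (d : ℕ) (v : T → Fin d → ℝ), (∀ x y, S x y = ∑ i, v x i * v y i) ∧ ∀ x, S x x = 1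

theorem UnitGram.symm {T : Type} {S : T → T → ℝ} (h : UnitGram S) (x y : T) :
    S x y = S y x := by
  obtain ⟨d, v, hv, -⟩ := h
  simp [hv, mul_comm]

theorem UnitGram.mem {T : Type} {S : T → T → ℝ} (h : UnitGram S) (x y : T) :
    S x y ∈ Icc (-1 : ℝ) 1 := by
  obtain ⟨d, v, hv, h1⟩ := h
  have hx := (hv x x).symm.trans (h1 x)
  have hy := (hv y y).symm.trans (h1 y)
  have a := Finset.sum_nonneg fun i (_ : i ∈ Finset.univ) => mul_self_nonneg (v x i + v y i)
  have b := Finset.sum_nonneg fun i (_ : i ∈ Finset.univ) => mul_self_nonneg (v x i - v y i)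
  simp only [add_mul, mul_add, sub_mul, mul_sub, Finset.sum_add_distrib,
    Finset.sum_sub_distrib, mul_comm (v y _) (v x _), hx, hy, ← hv] at a b
  constructor <;> linarith

section Geometry

variable {T : Type} {n d : ℕ}

/-- Unit vectors: two large clusters with inner products at most `c` inside and about `c` across
have almost the same mean. -/
theorem cluster_contra {S : T → T → ℝ} (hS : UnitGram S) {x : Fin n → T} {A B : Finset (Fin n)}
    {i₀ : Fin n} {m : ℕ} (hm : 0 < m) (hA : m ≤ A.card) (hB : m ≤ B.card) {a b c δ : ℝ}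
    (hc : -2 ≤ c + δ)
    (hAA : ∀ i ∈ A, ∀ j ∈ A, i ≠ j → S (x i) (x j) ≤ c + δ)
    (hBB : ∀ i ∈ B, ∀ j ∈ B, i ≠ j → S (x i) (x j) ≤ c + δ)
    (hAB : ∀ i ∈ A, ∀ j ∈ B, c - δ ≤ S (x i) (x j))
    (h0A : ∀ i ∈ A, S (x i₀) (x i) ≤ a + δ) (h0B : ∀ j ∈ B, b - δ ≤ S (x i₀) (x j))
    (hab : a + δ ≤ b - δ) : (b - a - 2 * δ) ^ 2 ≤ 4 * δ + 6 / m := by
  obtain ⟨d, v, hv, h1⟩ := hS
  have hmR : (0 : ℝ) < m := Nat.cast_pos.2 hm
  set VA : Fin d → ℝ := fun k => (∑ i ∈ A, v (x i) k) / A.card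
  set VB : Fin d → ℝ := fun k => (∑ j ∈ B, v (x j) k) / B.card
  have cA : (0 : ℝ) < A.card := lt_of_lt_of_le hmR (Nat.cast_le.2 hA)
  have cB : (0 : ℝ) < B.card := lt_of_lt_of_le hmR (Nat.cast_le.2 hB)
  have inner : ∀ (P Q : Finset (Fin n)),
      ∑ k, (∑ i ∈ P, v (x i) k) * (∑ j ∈ Q, v (x j) k) = ∑ i ∈ P, ∑ j ∈ Q, S (x i) (x j) := by
    intro P Q
    simp only [Finset.sum_mul_sum, hv]
    rw [Finset.sum_comm]
    exact Finset.sum_congr rfl fun i _ => Finset.sum_comm
  have self : ∀ P : Finset (Fin n), (∀ i ∈ P, ∀ j ∈ P, i ≠ j → S (x i) (x j) ≤ c + δ) →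
      ∑ i ∈ P, ∑ j ∈ P, S (x i) (x j) ≤ (P.card : ℝ) * (1 + ((P.card : ℝ) - 1) * (c + δ)) := by
    intro P hP
    refine (Finset.sum_le_sum fun i hi => ?_).trans_eq (by rw [Finset.sum_const, nsmul_eq_mul])
    rw [← Finset.add_sum_erase _ _ hi, h1]
    refine add_le_add le_rfl ((Finset.sum_le_card_nsmul _ _ (c + δ) fun j hj =>
      hP i hi j (Finset.mem_of_mem_erase hj) (Finset.ne_of_mem_erase hj).symm).trans_eq ?_)
    rw [Finset.card_erase_of_mem hi, nsmul_eq_mul,
      Nat.cast_sub (Finset.card_pos.2 ⟨i, hi⟩), Nat.cast_one]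
  have hsq : ∀ (P : Finset (Fin n)), m ≤ P.card →
      (∀ i ∈ P, ∀ j ∈ P, i ≠ j → S (x i) (x j) ≤ c + δ) →
      ∑ k, ((∑ i ∈ P, v (x i) k) / P.card) ^ 2 ≤ c + δ + 3 / m := by
    intro P hPm hP
    have cP : (0 : ℝ) < P.card := lt_of_lt_of_le hmR (Nat.cast_le.2 hPm)
    simp only [div_pow, ← Finset.sum_div]
    rw [div_le_iff₀ (by positivity)]
    simp only [pow_two]
    rw [inner]
    refine (self P hP).trans ?_
    have e : 1 - (c + δ) ≤ 3 / m * P.card := by
      rw [div_mul_eq_mul_div, le_div_iff₀ hmR]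
      have := mul_le_mul_of_nonneg_right (show 1 - (c + δ) ≤ 3 by linarith) hmR.le
      have : (m : ℝ) ≤ P.card := Nat.cast_le.2 hPm
      linarith
    have := mul_le_mul_of_nonneg_left e cP.le
    linarith
  have hcross : c - δ ≤ ∑ k, VA k * VB k := by
    have e : ∀ k, VA k * VB k
        = ((∑ i ∈ A, v (x i) k) * (∑ j ∈ B, v (x j) k)) / ((A.card : ℝ) * B.card) :=
      fun k => by simp only [VA, VB, div_mul_div_comm]
    simp only [e, ← Finset.sum_div, inner]
    rw [le_div_iff₀ (by positivity)]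
    refine le_trans (le_of_eq ?_) (Finset.sum_le_sum fun i hi =>
      Finset.card_nsmul_le_sum _ _ (c - δ) fun j hj => hAB i hi j hj)
    simp; ring
  have hdiff : ∑ k, (VA k - VB k) ^ 2 ≤ 4 * δ + 6 / m := by
    have e : ∑ k, (VA k - VB k) ^ 2 = ∑ k, VA k ^ 2 + ∑ k, VB k ^ 2 - 2 * ∑ k, VA k * VB k := by
      rw [Finset.mul_sum, ← Finset.sum_add_distrib, ← Finset.sum_sub_distrib]
      exact Finset.sum_congr rfl fun k _ => by ring
    have := hsq A hA hAA
    have := hsq B hB hBB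
    rw [e, show (6 : ℝ) / m = 3 / m + 3 / m by ring]
    linarith
  have hlow : b - a - 2 * δ ≤ ∑ k, v (x i₀) k * (VB k - VA k) := by
    have e : ∀ (P : Finset (Fin n)), ∑ k, v (x i₀) k * ((∑ i ∈ P, v (x i) k) / P.card)
        = (∑ i ∈ P, S (x i₀) (x i)) / P.card := by
      intro P
      simp only [← mul_div_assoc, ← Finset.sum_div, Finset.mul_sum, hv]
      rw [Finset.sum_comm]
    simp only [mul_sub, Finset.sum_sub_distrib]
    have hA' : ∑ k, v (x i₀) k * VA k ≤ a + δ := by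
      rw [e A, div_le_iff₀ cA]
      refine (Finset.sum_le_card_nsmul _ _ (a + δ) h0A).trans_eq ?_
      rw [nsmul_eq_mul, mul_comm]
    have hB' : b - δ ≤ ∑ k, v (x i₀) k * VB k := by
      rw [e B, le_div_iff₀ cB]
      refine le_trans (le_of_eq ?_) (Finset.card_nsmul_le_sum _ _ (b - δ) h0B)
      rw [nsmul_eq_mul, mul_comm]
    linarith
  have hcs := Finset.sum_mul_sq_le_sq_mul_sq Finset.univ (fun k => v (x i₀) k)
    (fun k => VB k - VA k)
  have hu : ∑ k, v (x i₀) k ^ 2 = 1 := by simp only [pow_two, ← hv]; exact h1 _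
  rw [hu, one_mul] at hcs
  calc (b - a - 2 * δ) ^ 2 ≤ (∑ k, v (x i₀) k * (VB k - VA k)) ^ 2 :=
        pow_le_pow_left₀ (by linarith) hlow 2
    _ ≤ ∑ k, (VB k - VA k) ^ 2 := hcs
    _ = ∑ k, (VA k - VB k) ^ 2 := Finset.sum_congr rfl fun k _ => by ring
    _ ≤ _ := hdiff

end Geometry

/-- The labelled configuration `σ` within tolerance `e`: value `A` across labels, at most `c`
inside a label. -/
def Fits {T : Type} (S : T → T → ℝ) (A : Fin 3 → Fin 3 → ℝ) (c : ℝ) {n : ℕ}
    (σ : Fin n → Fin 3) (e : ℝ) (x : Fin n → T) : Prop :=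
  ∀ i j, i ≠ j → (σ i ≠ σ j → |S (x i) (x j) - A (σ i) (σ j)| ≤ e) ∧
    (σ i = σ j → S (x i) (x j) ≤ c + e)

open Classical in
/-- Indicator of `Fits`. -/
noncomputable def fitsI {T : Type} (S : T → T → ℝ) (A : Fin 3 → Fin 3 → ℝ) (c : ℝ) {n : ℕ}
    (σ : Fin n → Fin 3) (e : ℝ) (x : Fin n → T) : ℝ :=
  if Fits S A c σ e x then 1 else 0

section Sequences

variable {T Ω : ℕ → Type} [∀ k, Fintype (T k)] [∀ k, Nonempty (T k)]
  [∀ k, MeasurableSpace (Ω k)] {μ : ∀ k, Measure (Ω k)} [∀ k, IsProbabilityMeasure (μ k)]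
  {u : ∀ k, Ω k → T k → ℝ} (hm : ∀ k x, Measurable fun ω => u k ω x)
  (hp : ∀ k ω x, 0 < u k ω x) {S : ∀ k, T k → T k → ℝ} (hS : ∀ k, UnitGram (S k))
  (hgg : ∀ j : ℕ, GGSeq μ u fun k x y => S k x y ^ (j + 1))

/-- The configuration occurs with probability bounded below along a subsequence. -/
def Often (μ : ∀ k, Measure (Ω k)) (u : ∀ k, Ω k → T k → ℝ) (S : ∀ k, T k → T k → ℝ)
    (A : Fin 3 → Fin 3 → ℝ) (c : ℝ) {n : ℕ} (σ : Fin n → Fin 3) (e : ℝ) : Prop :=
  ∃ p > (0 : ℝ), ∃ᶠ k in atTop, p ≤ eavg (μ k) (u k) n (fitsI (S k) A c σ e)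

omit [∀ k, Nonempty (T k)] [∀ k, IsProbabilityMeasure (μ k)] in
theorem often_perm {A : Fin 3 → Fin 3 → ℝ} {c : ℝ} {n : ℕ} {σ : Fin n → Fin 3} {e : ℝ}
    (h : Often μ u S A c σ e) (π : Equiv.Perm (Fin n)) : Often μ u S A c (σ ∘ π) e := by
  obtain ⟨p, hp, hfr⟩ := h
  refine ⟨p, hp, hfr.mono fun k hk => hk.trans_eq ?_⟩
  have e1 : fitsI (S k) A c σ e = fun x => fitsI (S k) A c (σ ∘ π) e (x ∘ π) := by
    funext x
    simp only [fitsI]
    congr 1
    refine propext ⟨fun h i j hij => h (π i) (π j) fun he => hij (π.injective he),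
      fun h i j hij => ?_⟩
    have := h (π.symm i) (π.symm j) fun he => hij (π.symm.injective he)
    simpa using this
  rw [e1]
  simp only [eavg, avg_perm']

include hm hp hS hgg

theorem often_dup {A : Fin 3 → Fin 3 → ℝ} {c : ℝ} (hA : ∀ i j, i ≠ j → A i j ≤ c) {N : ℕ}
    {σ : Fin (N + 2) → Fin 3} {e e' : ℝ} (hee : e < e') (h : Often μ u S A c σ e) :
    Often μ u S A c (Fin.cons (σ 0) σ : Fin (N + 3) → Fin 3) e' := by
  obtain ⟨p₀, hp₀, hfr⟩ := h
  set r : ℝ → ℝ := fun s => max 0 (min 1 ((s - (c + e)) / (e' - e))) with hr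
  have hrc : Continuous r := by rw [hr]; fun_prop
  have hd : 0 < e' - e := by linarith
  set b : ∀ k, (Fin (N + 1) → T k) → T k → ℝ :=
    fun k z y => fitsI (S k) A c σ e (Fin.cons y z)
  have hb : ∀ k z y, b k z y ∈ Icc (0 : ℝ) 1 := fun k z y => by
    simp only [b, fitsI]; split_ifs <;> simp
  have hvan : ∀ k z y l, b k z y ≠ 0 → r (S k y (z l)) = 0 := by
    intro k z y l hne
    simp only [b, fitsI, ne_eq, ite_eq_right_iff, one_ne_zero, imp_false, not_not] at hne
    have := hne 0 l.succ (Fin.succ_ne_zero l).symm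
    simp only [Fin.cons_zero, Fin.cons_succ] at this
    have hle : S k y (z l) ≤ c + e := by
      by_cases hl : σ 0 = σ l.succ
      · exact this.2 hl
      · have h1 := (abs_le.1 (this.1 hl)).2
        linarith [hA _ _ hl]
    have : (S k y (z l) - (c + e)) / (e' - e) ≤ 0 := div_nonpos_of_nonpos_of_nonneg (by linarith) hd.le
    simp only [hr]
    rw [max_eq_left ((min_le_right _ _).trans this)]
  have hev : ∀ k, eavg (μ k) (u k) (N + 2) (fitsI (S k) A c σ e)
      = eavg (μ k) (u k) (N + 2) (fun x => b k (fun i => x i.succ) (x 0)) := fun k => by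
    congr 1
    funext x
    simp only [b]
    congr 1
    exact (Fin.cons_self_tail x).symm
  obtain ⟨q, hq, hfq⟩ := dup_step hm hp (ggSeq_comp hm hp (fun k => (hS k).mem) hgg hrc)
    (fun k x y => ⟨le_max_left _ _, max_le zero_le_one (min_le_left _ _)⟩) b hb hvan hp₀
    (hfr.mono fun k hk => hk.trans_eq (hev k))
  refine ⟨q, hq, hfq.mono fun k hk => hk.trans (eavg_mono' (hm k) (hp k) fun x => ?_)⟩
  by_cases h0 : b k (fun i => x i.succ.succ) (x 0) *
      (b k (fun i => x i.succ.succ) (x 1) * (1 - r (S k (x 0) (x 1)))) = 0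
  · rw [h0, fitsI]; split_ifs <;> norm_num
  obtain ⟨g0, g1, g2⟩ : b k (fun i => x i.succ.succ) (x 0) ≠ 0 ∧
      b k (fun i => x i.succ.succ) (x 1) ≠ 0 ∧ 1 - r (S k (x 0) (x 1)) ≠ 0 := by
    refine ⟨?_, ?_, ?_⟩ <;> intro hz <;> exact h0 (by simp [hz])
  simp only [b, fitsI, ne_eq, ite_eq_right_iff, one_ne_zero, imp_false, not_not] at g0 g1
  have hclose : S k (x 0) (x 1) ≤ c + e' := by
    by_contra hgt
    refine g2 ?_
    have : 1 ≤ (S k (x 0) (x 1) - (c + e)) / (e' - e) := (one_le_div hd).2 (by linarith)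
    simp only [hr, min_eq_left this, max_eq_right zero_le_one, sub_self]
  have hfit : Fits (S k) A c (Fin.cons (σ 0) σ : Fin (N + 3) → Fin 3) e' x := by
    have h1 : (Fin.cons (x 1) fun i : Fin (N + 1) => x i.succ.succ) = fun i => x i.succ := by
      funext i
      refine Fin.cases ?_ (fun j => ?_) i <;> simp
    rw [h1] at g1
    have hsym := (hS k).symm
    have h01 : ∀ j : Fin (N + 2),
        ((σ 0 ≠ σ j → |S k (x 0) (x j.succ) - A (σ 0) (σ j)| ≤ e') ∧
          (σ 0 = σ j → S k (x 0) (x j.succ) ≤ c + e')) ∧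
        ((σ j ≠ σ 0 → |S k (x j.succ) (x 0) - A (σ j) (σ 0)| ≤ e') ∧
          (σ j = σ 0 → S k (x j.succ) (x 0) ≤ c + e')) := by
      intro j
      refine Fin.cases ?_ (fun l => ?_) j
      · simp only [Fin.succ_zero_eq_one']
        exact ⟨⟨fun h => absurd rfl h, fun _ => hclose⟩,
          ⟨fun h => absurd rfl h, fun _ => by rw [hsym]; exact hclose⟩⟩
      · have a1 := g0 0 l.succ (Fin.succ_ne_zero l).symm
        have a2 := g0 l.succ 0 (Fin.succ_ne_zero l)
        simp only [Fin.cons_zero, Fin.cons_succ] at a1 a2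
        exact ⟨⟨fun h => (a1.1 h).trans hee.le, fun h => by linarith [a1.2 h]⟩,
          ⟨fun h => (a2.1 h).trans hee.le, fun h => by linarith [a2.2 h]⟩⟩
    intro i j hij
    revert hij
    refine Fin.cases ?_ (fun i' => ?_) i <;> refine Fin.cases ?_ (fun j' => ?_) j <;> intro hij
    · exact absurd rfl hij
    · simp only [Fin.cons_zero, Fin.cons_succ]; exact (h01 j').1
    · simp only [Fin.cons_zero, Fin.cons_succ]; exact (h01 i').2
    · simp only [Fin.cons_succ]
      have a1 := g1 i' j' fun h => hij (congrArg Fin.succ h)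
      exact ⟨fun h => (a1.1 h).trans hee.le, fun h => by linarith [a1.2 h]⟩
  rw [fitsI, if_pos hfit]
  have l1 := (hb k (fun i => x i.succ.succ) (x 0))
  have l2 := (hb k (fun i => x i.succ.succ) (x 1))
  have l3 : 1 - r (S k (x 0) (x 1)) ∈ Icc (0 : ℝ) 1 :=
    ⟨sub_nonneg.2 (max_le zero_le_one (min_le_left _ _)),
      sub_le_self _ (le_max_left _ _)⟩
  exact mul_le_one₀ l1.2 (mul_nonneg l2.1 l3.1) (mul_le_one₀ l2.2 l3.1 l3.2)

/-- Iterated duplication: as many copies of each label as we like. -/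
theorem often_copies {A : Fin 3 → Fin 3 → ℝ} {c : ℝ} (hA : ∀ i j, i ≠ j → A i j ≤ c)
    {e₀ δ : ℝ} (he : e₀ < δ) (h : Often μ u S A c (id : Fin 3 → Fin 3) e₀) (m : ℕ) :
    ∃ (N : ℕ) (σ : Fin (N + 2) → Fin 3) (e : ℝ), e < δ ∧
      (∀ t, m + 1 ≤ (Finset.univ.filter fun i => σ i = t).card) ∧ Often μ u S A c σ e := by
  induction m with
  | zero =>
    exact ⟨1, id, e₀, he, fun t => Finset.card_pos.2 ⟨t, by simp⟩, h⟩
  | succ m ih =>
    have step : ∀ (t : Fin 3) (need : Fin 3 → ℕ), 1 ≤ need t →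
        (∃ (N : ℕ) (σ : Fin (N + 2) → Fin 3) (e : ℝ), e < δ ∧
          (∀ s, need s ≤ (Finset.univ.filter fun i => σ i = s).card) ∧ Often μ u S A c σ e) →
        ∃ (N : ℕ) (σ : Fin (N + 2) → Fin 3) (e : ℝ), e < δ ∧
          (∀ s, Function.update need t (need t + 1) s
            ≤ (Finset.univ.filter fun i => σ i = s).card) ∧ Often μ u S A c σ e := by
      rintro t need h1 ⟨N, σ, e, hlt, hcount, hoft⟩
      obtain ⟨i, hi⟩ := Finset.card_pos.1 (lt_of_lt_of_le h1 (hcount t))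
      simp only [Finset.mem_filter, Finset.mem_univ, true_and] at hi
      set σ' := σ ∘ Equiv.swap 0 i with hσ'
      have h0 : σ' 0 = t := by simp [hσ', hi]
      refine ⟨N + 1, Fin.cons (σ' 0) σ', (e + δ) / 2, by linarith, fun s => ?_,
        often_dup hm hp hS hgg hA (by linarith) (often_perm hoft _)⟩
      have hcard : (Finset.univ.filter fun j => σ' j = s).card
          = (Finset.univ.filter fun j => σ j = s).card := by
        simp only [Finset.card_filter, hσ', Function.comp_apply]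
        exact Equiv.sum_comp (Equiv.swap 0 i) fun j => if σ j = s then 1 else 0
      have hsplit : (Finset.univ.filter fun j : Fin (N + 3) =>
            (Fin.cons (σ' 0) σ' : Fin (N + 3) → Fin 3) j = s).card
          = (if t = s then 1 else 0) + (Finset.univ.filter fun j => σ j = s).card := by
        rw [← hcard, h0]
        simp only [Finset.card_filter]
        rw [Fin.sum_univ_succ]
        simp
      rw [hsplit]
      rcases eq_or_ne s t with rfl | hst
      · simp only [Function.update_self, if_true]; have := hcount s; omega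
      · simp only [Function.update_of_ne hst, if_neg hst.symm]; have := hcount s; omega
    obtain ⟨N, σ, e, h1, h2, h3⟩ := step 2 _ (by simp) (step 1 _ (by simp) (step 0 (fun _ => m + 1)
      (by omega) ih))
    refine ⟨N, σ, e, h1, fun t => le_trans ?_ (h2 t), h3⟩
    fin_cases t <;> simp [Function.update]

/-- No triangle with a single smallest side is seen often. -/
theorem not_often {A : Fin 3 → Fin 3 → ℝ} {c γ : ℝ} (hγ : 0 < γ) (hc : -1 ≤ c)
    (hA : ∀ i j, i ≠ j → A i j ≤ c) (hAc : A 1 2 = c) (hab : A 0 1 + γ ≤ A 0 2) {e₀ : ℝ}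
    (he₀ : e₀ < min (γ / 8) (γ ^ 2 / 32)) :
    ¬ Often μ u S A c (id : Fin 3 → Fin 3) e₀ := by
  intro h
  obtain ⟨m, hm'⟩ := exists_nat_gt (48 / γ ^ 2)
  obtain ⟨N, σ, e, hlt, hcount, p, hp0, hfr⟩ := often_copies hm hp hS hgg hA he₀ h m
  obtain ⟨k, hk⟩ := hfr.exists
  obtain ⟨x, hx⟩ : ∃ x, Fits (S k) A c σ e x := by
    by_contra hne
    push Not at hne
    have : fitsI (S k) A c σ e = fun _ => (0 : ℝ) := funext fun x => if_neg (hne x)
    rw [this, eavg_const' (hp k)] at hk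
    linarith
  obtain ⟨i₀, hi₀⟩ := Finset.card_pos.1 (lt_of_lt_of_le (Nat.succ_pos m) (hcount 0))
  simp only [Finset.mem_filter, Finset.mem_univ, true_and] at hi₀
  have he1 : e < γ / 8 := hlt.trans_le (min_le_left _ _)
  have he2 : e < γ ^ 2 / 32 := hlt.trans_le (min_le_right _ _)
  have he0 : 0 ≤ e := by
    obtain ⟨i₁, hi₁⟩ := Finset.card_pos.1 (lt_of_lt_of_le (Nat.succ_pos m) (hcount 1))
    simp only [Finset.mem_filter, Finset.mem_univ, true_and] at hi₁
    exact (abs_nonneg _).trans ((hx i₀ i₁ (by rintro rfl; rw [hi₀] at hi₁; simp at hi₁)).1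
      (by rw [hi₀, hi₁]; decide))
  have mem : ∀ {i t}, i ∈ (Finset.univ.filter fun i => σ i = t) → σ i = t := fun hi =>
    (Finset.mem_filter.1 hi).2
  have hineq := cluster_contra (hS k) (x := x) (i₀ := i₀) (a := A 0 1) (b := A 0 2) (c := c)
    (δ := e) (A := Finset.univ.filter fun i => σ i = 1)
    (B := Finset.univ.filter fun i => σ i = 2) (Nat.succ_pos m) (hcount 1) (hcount 2)
    (by linarith)
    (fun i hi j hj hij => (hx i j hij).2 ((mem hi).trans (mem hj).symm))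
    (fun i hi j hj hij => (hx i j hij).2 ((mem hi).trans (mem hj).symm))
    (fun i hi j hj => by
      have hne : σ i ≠ σ j := by rw [mem hi, mem hj]; decide
      have := (abs_le.1 ((hx i j fun h => hne (congrArg σ h)).1 hne)).1
      rw [mem hi, mem hj, hAc] at this
      linarith)
    (fun i hi => by
      have hne : σ i₀ ≠ σ i := by rw [hi₀, mem hi]; decide
      have := (abs_le.1 ((hx i₀ i fun h => hne (congrArg σ h)).1 hne)).2
      rw [hi₀, mem hi] at this
      linarith)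
    (fun i hi => by
      have hne : σ i₀ ≠ σ i := by rw [hi₀, mem hi]; decide
      have := (abs_le.1 ((hx i₀ i fun h => hne (congrArg σ h)).1 hne)).1
      rw [hi₀, mem hi] at this
      linarith)
    (by linarith)
  have h6 : 6 / ((m + 1 : ℕ) : ℝ) ≤ γ ^ 2 / 8 := by
    rw [div_le_div_iff₀ (by positivity) (by norm_num)]
    rw [div_lt_iff₀ (by positivity)] at hm'
    push_cast
    linarith [sq_nonneg γ]
  have h7 := pow_le_pow_left₀ (by linarith : (0 : ℝ) ≤ 3 * γ / 4)
    (by linarith : 3 * γ / 4 ≤ A 0 2 - A 0 1 - 2 * e) 2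
  nlinarith [pow_pos hγ 2]

open Classical in
/-- Asymptotic ultrametricity. -/
theorem ultra_of_gg {γ ε : ℝ} (hγ : 0 < γ) (hε : 0 < ε) :
    ∀ᶠ k in atTop, eavg (μ k) (u k) 3 (fun x =>
      if S k (x 0) (x 1) + γ ≤ S k (x 0) (x 2) ∧ S k (x 0) (x 1) + γ ≤ S k (x 1) (x 2)
        then (1 : ℝ) else 0) ≤ ε := by
  obtain ⟨δ, hδ, hδγ, hδe⟩ : ∃ δ : ℝ, 0 < δ ∧ δ ≤ γ / 2 ∧ δ < min (γ / 2 / 8) ((γ / 2) ^ 2 / 32) := by
    refine ⟨min (γ / 2 / 8) ((γ / 2) ^ 2 / 32) / 2, by positivity, ?_, ?_⟩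
    · linarith [min_le_left (γ / 2 / 8) ((γ / 2) ^ 2 / 32)]
    · exact half_lt_self (by positivity)
  set n := ⌊2 / δ⌋₊ + 1
  set g : ℝ → ℕ := fun s => ⌊(s + 1) / δ⌋₊ with hg
  set cen : ℕ → ℝ := fun i => -1 + δ * i with hcen
  have hgn : ∀ s ∈ Icc (-1 : ℝ) 1, g s < n ∧ |s - cen (g s)| ≤ δ := by
    intro s hs
    refine ⟨Nat.lt_succ_of_le (Nat.floor_le_floor (by gcongr; linarith [hs.2])), ?_⟩
    have h1 := Nat.floor_le (div_nonneg (by linarith [hs.1]) hδ.le : 0 ≤ (s + 1) / δ)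
    have h2 := Nat.lt_floor_add_one ((s + 1) / δ)
    rw [le_div_iff₀ hδ] at h1
    rw [div_lt_iff₀ hδ] at h2
    simp only [hg, hcen, abs_le]
    constructor <;> linarith
  set boxes := (Finset.range n ×ˢ Finset.range n ×ˢ Finset.range n).filter
    fun q : ℕ × ℕ × ℕ => q.1 ≤ q.2.2 ∧ q.2.1 ≤ q.2.2 ∧ cen q.1 + γ / 2 ≤ cen q.2.1
  set Amat : ℕ × ℕ × ℕ → Fin 3 → Fin 3 → ℝ := fun q =>
    ![![0, cen q.1, cen q.2.1], ![cen q.1, 0, cen q.2.2], ![cen q.2.1, cen q.2.2, 0]] with hAm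
  have hmono : ∀ i j : ℕ, i ≤ j → cen i ≤ cen j := fun i j hij => by
    have := mul_le_mul_of_nonneg_left (Nat.cast_le.2 hij : (i : ℝ) ≤ j) hδ.le
    simp only [hcen]; linarith
  have hnot : ∀ q ∈ boxes, ¬ Often μ u S (Amat q) (cen q.2.2) (id : Fin 3 → Fin 3) δ := by
    intro q hq
    obtain ⟨-, h13, h23, hgap⟩ := Finset.mem_filter.1 hq
    refine not_often hm hp hS hgg (γ := γ / 2) (by linarith)
      (by simp only [hcen]; linarith [mul_nonneg hδ.le (Nat.cast_nonneg (α := ℝ) q.2.2)])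
      (fun i j hij => ?_) (by simp [hAm]) (by simpa [hAm] using hgap) hδe
    fin_cases i <;> fin_cases j <;>
      simp only [hAm, ne_eq, not_true_eq_false] at hij ⊢ <;>
      simp [hmono _ _ h13, hmono _ _ h23]
  set η := ε / (2 * ((boxes.card : ℝ) + 1)) with hη
  have hsmall : ∀ q ∈ boxes, ∀ᶠ k in atTop,
      eavg (μ k) (u k) 3 (fitsI (S k) (Amat q) (cen q.2.2) id δ) ≤ η := by
    intro q hq
    by_contra hne
    rw [Filter.not_eventually] at hne
    exact hnot q hq ⟨η, by positivity, hne.mono fun k hk => (not_le.1 hk).le⟩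
  filter_upwards [boxes.eventually_all.2 hsmall] with k hk
  set π : Equiv.Perm (Fin 3) := Equiv.swap 0 1
  refine (eavg_mono' (hm k) (hp k) (H := fun x => ∑ q ∈ boxes,
    (fitsI (S k) (Amat q) (cen q.2.2) id δ x
      + fitsI (S k) (Amat q) (cen q.2.2) id δ (x ∘ π))) fun x => ?_).trans ?_
  · have hnn : ∀ q (y : Fin 3 → T k), 0 ≤ fitsI (S k) (Amat q) (cen q.2.2) id δ y := fun q y => by
      rw [fitsI]; split_ifs <;> norm_num
    split_ifs with hbad
    swap; · exact Finset.sum_nonneg fun q _ => add_nonneg (hnn q _) (hnn q _)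
    have key : ∀ y : Fin 3 → T k, S k (y 0) (y 1) + γ ≤ S k (y 0) (y 2) →
        S k (y 0) (y 2) ≤ S k (y 1) (y 2) →
        ∃ q ∈ boxes, fitsI (S k) (Amat q) (cen q.2.2) id δ y = 1 := by
      intro y h1 h2
      have hmem := (hS k).mem
      have hsym := (hS k).symm
      obtain ⟨a1, a2⟩ := hgn _ (hmem (y 0) (y 1))
      obtain ⟨b1, b2⟩ := hgn _ (hmem (y 0) (y 2))
      obtain ⟨c1, c2⟩ := hgn _ (hmem (y 1) (y 2))
      refine ⟨(g (S k (y 0) (y 1)), g (S k (y 0) (y 2)), g (S k (y 1) (y 2))), ?_, ?_⟩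
      · simp only [boxes, Finset.mem_filter, Finset.mem_product, Finset.mem_range]
        refine ⟨⟨a1, b1, c1⟩, Nat.floor_le_floor (by gcongr; linarith),
          Nat.floor_le_floor (by gcongr), ?_⟩
        have hstep : ∀ s ∈ Icc (-1 : ℝ) 1, cen (g s) ≤ s ∧ s < cen (g s) + δ := fun s hs => by
          have h1 := Nat.floor_le (div_nonneg (by linarith [hs.1]) hδ.le : 0 ≤ (s + 1) / δ)
          have h2 := Nat.lt_floor_add_one ((s + 1) / δ)
          rw [le_div_iff₀ hδ] at h1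
          rw [div_lt_iff₀ hδ] at h2
          simp only [hg, hcen]
          constructor <;> linarith
        linarith [(hstep _ (hmem (y 0) (y 1))).1, (hstep _ (hmem (y 0) (y 2))).2]
      · rw [fitsI, if_pos]
        intro i j hij
        refine ⟨fun _ => ?_, fun h => absurd h hij⟩
        fin_cases i <;> fin_cases j <;>
          first | exact absurd rfl hij | simp [hAm, hsym (y 1) (y 0), hsym (y 2) (y 0), hsym (y 2) (y 1), a2, b2, c2]
    rcases le_total (S k (x 0) (x 2)) (S k (x 1) (x 2)) with hle | hle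
    · obtain ⟨q, hq, h⟩ := key x hbad.1 hle
      refine le_trans (le_trans h.ge (le_add_of_nonneg_right (hnn q _)))
        (Finset.single_le_sum (fun q _ => add_nonneg (hnn q _) (hnn q _)) hq)
    · have e0 : (x ∘ π) 0 = x 1 := by simp [π]
      have e1 : (x ∘ π) 1 = x 0 := by simp [π]
      have e2 : (x ∘ π) 2 = x 2 := by simp [π, Equiv.swap_apply_def]
      obtain ⟨q, hq, h⟩ := key (x ∘ π) (by rw [e0, e1, e2, (hS k).symm (x 1) (x 0)]; exact hbad.2)
        (by rw [e0, e1, e2]; exact hle)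
      refine le_trans (le_trans h.ge (le_add_of_nonneg_left (hnn q _)))
        (Finset.single_le_sum (fun q _ => add_nonneg (hnn q _) (hnn q _)) hq)
  · rw [eavg_sum' (hm k) (hp k)]
    refine (Finset.sum_le_sum (g := fun _ => 2 * η) fun q hq => ?_).trans ?_
    · rw [eavg_add' (hm k) (hp k),
        show eavg (μ k) (u k) 3 (fun x => fitsI (S k) (Amat q) (cen q.2.2) id δ (x ∘ π))
          = eavg (μ k) (u k) 3 (fitsI (S k) (Amat q) (cen q.2.2) id δ) by
          simp only [eavg, avg_perm']]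
      linarith [hk q hq]
    · rw [Finset.sum_const, nsmul_eq_mul, hη,
        show (boxes.card : ℝ) * (2 * (ε / (2 * ((boxes.card : ℝ) + 1))))
          = (boxes.card : ℝ) / ((boxes.card : ℝ) + 1) * ε by field_simp]
      exact mul_le_of_le_one_left hε.le ((div_le_one (by positivity)).2 (by linarith))

end Sequences

end Vale.Agent.P157.Casc
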