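import Vale.Agent.P157.Casc.Ultra.Avg

/-!
Duplication from the overlap identities.  If a set of replicas defined by the others has positive
mass, then with positive probability two independent points of it have kernel value not near one,
provided the kernel vanishes between the set and the other replicas.  One test is used: a
polynomial close to `w ↦ (w + η) ^ (-k)` in the mass `w` of the set.
-/

open MeasureTheory Filter Topology Set

namespace Vale.Agent.P157.Casc

/-- The regularised negative power and its derivative. -/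
noncomputable def negPow (η k w : ℝ) : ℝ := (w + η) ^ (-k)

noncomputable def negPow' (η k w : ℝ) : ℝ := -k * (w + η) ^ (-k - 1)

theorem hasDerivAt_negPow {η k w : ℝ} (h : 0 < w + η) :
    HasDerivAt (negPow η k) (negPow' η k w) w := by
  have := (Real.hasDerivAt_rpow_const (x := w + η) (p := -k) (Or.inl h.ne')).comp w
    ((hasDerivAt_id' w).add_const η)
  unfold negPow negPow'
  simpa [Function.comp_def] using this

theorem negPow'_bound {η k w : ℝ} (hη : 0 < η) (hη1 : η ≤ 1) (hk : 0 ≤ k) (hk1 : k ≤ 1)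
    (hw : 0 ≤ w) : |negPow' η k w| ≤ (1 / η) ^ 2 := by
  have hwp : 0 < w + η := by linarith
  rw [negPow', abs_mul, abs_neg, abs_of_nonneg hk, Real.abs_rpow_of_nonneg hwp.le,
    abs_of_pos hwp]
  refine (mul_le_of_le_one_left (Real.rpow_nonneg hwp.le _) hk1).trans ?_
  calc (w + η) ^ (-k - 1) ≤ η ^ (-k - 1) :=
        Real.rpow_le_rpow_of_nonpos hη (by linarith) (by linarith)
    _ ≤ η ^ (-2 : ℝ) := Real.rpow_le_rpow_of_exponent_ge hη hη1 (by linarith)
    _ = (1 / η) ^ 2 := by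
        rw [show (-2 : ℝ) = -((2 : ℕ) : ℝ) from by norm_num, Real.rpow_neg hη.le,
          Real.rpow_natCast, one_div, inv_pow]

theorem negPow_bound {η k w : ℝ} (hη : 0 < η) (hη1 : η ≤ 1) (hk : 0 ≤ k) (hk1 : k ≤ 1)
    (hw : 0 ≤ w) : 0 ≤ negPow η k w ∧ negPow η k w ≤ 1 / η := by
  refine ⟨Real.rpow_nonneg (by linarith) _, ?_⟩
  calc (w + η) ^ (-k) ≤ η ^ (-k) := Real.rpow_le_rpow_of_nonpos hη (by linarith) (by linarith)
    _ ≤ η ^ (-1 : ℝ) := Real.rpow_le_rpow_of_exponent_ge hη hη1 (by linarith)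
    _ = 1 / η := by rw [Real.rpow_neg_one, one_div]

/-- The pointwise inequality behind the test. -/
theorem negPow_key {η k c w M : ℝ} (hη : 0 < η) (hη1 : η ≤ 1) (hc : c ≤ k) (hc1 : c ≤ 1)
    (hk : 0 < k) (hk1 : k ≤ 1) (hw : 0 ≤ w) (hw1 : w ≤ 1) (hM : 1 ≤ M) :
    w * (c * negPow η k w + w * negPow' η k w - (M * negPow η k w + w * negPow' η k w) * w)
      ≤ η ^ (1 - k) - (k - c) / 4 * w ^ 2 := by
  have hwp : 0 < w + η := by linarith
  have e : (w + η) ^ (-k) = (w + η) ^ (-k - 1) * (w + η) := by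
    conv_lhs => rw [show -k = (-k - 1) + 1 by ring]
    rw [Real.rpow_add hwp, Real.rpow_one]
  have hr : (0 : ℝ) ≤ (w + η) ^ (-k - 1) := Real.rpow_nonneg hwp.le _
  have hr2 : (1 : ℝ) / 4 ≤ (w + η) ^ (-k - 1) := by
    calc (1 : ℝ) / 4 = (2 : ℝ) ^ (-2 : ℝ) := by norm_num [Real.rpow_neg, Real.rpow_two]
      _ ≤ (2 : ℝ) ^ (-k - 1) := Real.rpow_le_rpow_of_exponent_le (by norm_num) (by linarith)
      _ ≤ _ := Real.rpow_le_rpow_of_nonpos hwp (by linarith) (by linarith)
  have h1 : w * (w + η) ^ (-k - 1) * η ≤ η ^ (1 - k) := by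
    calc w * (w + η) ^ (-k - 1) * η ≤ (w + η) * (w + η) ^ (-k - 1) * η :=
          mul_le_mul_of_nonneg_right (mul_le_mul_of_nonneg_right (by linarith) hr) hη.le
      _ = (w + η) ^ (-k) * η := by rw [e]; ring
      _ ≤ η ^ (-k) * η := mul_le_mul_of_nonneg_right
          (Real.rpow_le_rpow_of_nonpos hη (by linarith) (by linarith)) hη.le
      _ = η ^ (1 - k) := by
          rw [show (1 : ℝ) - k = -k + 1 by ring, Real.rpow_add hη, Real.rpow_one]
  rw [negPow, negPow', e]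
  nlinarith [mul_nonneg (mul_nonneg hw hr) (mul_nonneg hw (sub_nonneg.2 hc)),
    mul_le_mul_of_nonneg_left hr2 (mul_nonneg (mul_nonneg hw hw) (sub_nonneg.2 hc)),
    mul_nonneg (mul_nonneg hw hr) (mul_nonneg hw (mul_nonneg hw (sub_nonneg.2 (hk1.trans hM)))),
    mul_nonneg (mul_nonneg hw hr) (mul_nonneg hw (mul_nonneg hη.le (zero_le_one.trans hM))),
    mul_le_mul_of_nonneg_left hc1 (mul_nonneg (mul_nonneg hw hr) hη.le)]

/-- A polynomial and its derivative, given by coefficients. -/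
noncomputable def polyV (a : ℕ → ℝ) (n : ℕ) (w : ℝ) : ℝ := ∑ m ∈ Finset.range n, a m * w ^ m

noncomputable def polyD (a : ℕ → ℝ) (n : ℕ) (w : ℝ) : ℝ :=
  ∑ m ∈ Finset.range n, a m * ((m : ℝ) * w ^ (m - 1))

theorem exists_poly_near {g g' : ℝ → ℝ} (hg : ∀ w ∈ Icc (0 : ℝ) 1, HasDerivAt g (g' w) w)
    (hg' : ContinuousOn g' (Icc 0 1)) {θ : ℝ} (hθ : 0 < θ) :
    ∃ (a : ℕ → ℝ) (n : ℕ), ∀ w ∈ Icc (0 : ℝ) 1,
      |polyV a n w - g w| ≤ θ ∧ |polyD a n w - g' w| ≤ θ := by
  obtain ⟨p, hp⟩ := exists_polynomial_near_of_continuousOn 0 1 g' hg' θ hθ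
  refine ⟨fun m => if m = 0 then g 0 else p.coeff (m - 1) / m, p.natDegree + 2, ?_⟩
  set a : ℕ → ℝ := fun m => if m = 0 then g 0 else p.coeff (m - 1) / m
  have hd : ∀ w, polyD a (p.natDegree + 2) w = p.eval w := by
    intro w
    rw [polyD, Finset.sum_range_succ', Polynomial.eval_eq_sum_range]
    simp only [Nat.cast_zero, zero_mul, mul_zero, add_zero, Nat.add_sub_cancel]
    refine Finset.sum_congr rfl fun i _ => ?_
    have : ((i + 1 : ℕ) : ℝ) ≠ 0 := Nat.cast_ne_zero.2 (by omega)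
    simp only [a, Nat.succ_ne_zero, if_false, Nat.add_sub_cancel]
    field_simp
  have hv : ∀ w, HasDerivAt (polyV a (p.natDegree + 2)) (polyD a (p.natDegree + 2) w) w := fun w =>
    HasDerivAt.fun_sum fun m _ => (hasDerivAt_pow m w).const_mul (a m)
  have h0 : polyV a (p.natDegree + 2) 0 = g 0 := by
    rw [polyV, Finset.sum_range_succ']
    simp [a]
  intro w hw
  refine ⟨?_, by rw [hd]; exact (hp w hw).le⟩
  have := Convex.norm_image_sub_le_of_norm_hasDerivWithin_le (𝕜 := ℝ)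
    (f := fun r => polyV a (p.natDegree + 2) r - g r) (C := θ)
    (fun r hr => ((hv r).sub (hg r hr)).hasDerivWithinAt)
    (fun r hr => by rw [Real.norm_eq_abs, hd]; exact (hp r hr).le)
    (convex_Icc 0 1) (left_mem_Icc.2 zero_le_one) hw
  simp only [h0, sub_self, sub_zero, Real.norm_eq_abs] at this
  refine this.trans (mul_le_of_le_one_right hθ.le ?_)
  rw [abs_of_nonneg hw.1]; exact hw.2

section Identity

variable {T : Type*} [Fintype T] [Nonempty T] {u : T → ℝ} {N : ℕ}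

/-- Mass of the set `b z`. -/
noncomputable def mass (u : T → ℝ) (b : (Fin N → T) → T → ℝ) (z : Fin N → T) : ℝ :=
  ∑ y, gibbs u y * b z y

/-- Mass of the part of the set `b z` away from `x`. -/
noncomputable def away (u : T → ℝ) (b : (Fin N → T) → T → ℝ) (H : T → T → ℝ) (z : Fin N → T)
    (x : T) : ℝ :=
  ∑ y, gibbs u y * (b z y * (1 - H x y))

/-- The test with `m` further replicas in the set. -/
def dupF (b : (Fin N → T) → T → ℝ) (m : ℕ) (x : Fin (N + m + 1) → T) : ℝ :=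
  b (fun i => x (Fin.castAdd m i).succ) (x 0)
    * ∏ i, b (fun i => x (Fin.castAdd m i).succ) (x (Fin.natAdd N i).succ)

omit [Nonempty T] in
theorem avg_dupF (b : (Fin N → T) → T → ℝ) (m : ℕ) :
    avg u (N + m + 1) (dupF b m)
      = avg u N fun z => ∑ x, gibbs u x * b z x * mass u b z ^ m := by
  rw [avg_cons', avg_sum' Finset.univ]
  refine Finset.sum_congr rfl fun x _ => ?_
  simp only [mul_assoc (gibbs u x), avg_smul', avg_append']
  congr 1
  refine congrArg (avg u N) (funext fun z => ?_)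
  simp only [dupF, Fin.cons_succ, Fin.cons_zero, Fin.append_left, Fin.append_right]
  rw [avg_smul', avg_prod', Finset.prod_const, Finset.card_univ, Fintype.card_fin]
  rfl

omit [Nonempty T] in
theorem avg_dupF_new (b : (Fin N → T) → T → ℝ) (H : T → T → ℝ) (m : ℕ) :
    avg u (N + m + 2) (fun x => dupF b m (fun i => x i.castSucc)
        * H (x 0) (x (Fin.last (N + m + 1))))
      = avg u N fun z => ∑ x, gibbs u x * b z x * mass u b z ^ m * ∑ y, gibbs u y * H x y := by
  rw [avg_snoc', avg_cons', avg_sum' Finset.univ]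
  refine Finset.sum_congr rfl fun x _ => ?_
  simp only [mul_assoc (gibbs u x), avg_smul', avg_append']
  congr 1
  refine congrArg (avg u N) (funext fun z => ?_)
  have h0 : ∀ (f : Fin (N + m + 1) → T) (y : T),
      (Fin.snoc (α := fun _ => T) f y) 0 = f 0 := fun f y => by
    rw [← Fin.castSucc_zero, Fin.snoc_castSucc]
  simp only [Fin.snoc_castSucc, h0, Fin.snoc_last, dupF, Fin.cons_succ, Fin.cons_zero,
    Fin.append_left, Fin.append_right]
  simp only [mul_left_comm (gibbs u _), ← Finset.mul_sum, mul_assoc, avg_smul']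
  simp only [mul_comm _ (∑ y, gibbs u y * H x y), avg_smul']
  rw [avg_prod', Finset.prod_const, Finset.card_univ, Fintype.card_fin]
  simp only [mass]

omit [Nonempty T] in
theorem avg_dupF_sum (b : (Fin N → T) → T → ℝ) (H : T → T → ℝ)
    (hvan : ∀ z y l, b z y ≠ 0 → H y (z l) = 0) (m : ℕ) :
    ∑ l : Fin (N + m), avg u (N + m + 1) (fun x => dupF b m x * H (x 0) (x l.succ))
      = avg u N fun z => ∑ x, gibbs u x * b z x
          * ((m : ℝ) * mass u b z ^ (m - 1) * (mass u b z - away u b H z x)) := by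
  rw [Fin.sum_univ_add, Finset.sum_eq_zero (s := Finset.univ) (fun l _ => ?_), zero_add]
  swap
  · rw [show (fun x : Fin (N + m + 1) → T => dupF b m x * H (x 0) (x (Fin.castAdd m l).succ))
        = fun _ => (0 : ℝ) * 0 from funext fun x => ?_, avg_smul', zero_mul]
    by_cases h : b (fun i => x (Fin.castAdd m i).succ) (x 0) = 0
    · simp [dupF, h]
    · simp [hvan _ _ l h]
  rw [← avg_sum' Finset.univ, avg_cons', avg_sum' Finset.univ]
  refine Finset.sum_congr rfl fun x _ => ?_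
  simp only [mul_assoc (gibbs u x), avg_smul', avg_append']
  congr 1
  refine congrArg (avg u N) (funext fun z => ?_)
  simp only [dupF, Fin.cons_succ, Fin.cons_zero, Fin.append_left, Fin.append_right, mul_assoc]
  simp only [← Finset.mul_sum, avg_smul']
  congr 1
  simp only [Finset.mul_sum, avg_sum']
  have hk : ∀ k : Fin m, avg u m (fun y => (∏ i, b z (y i)) * H x (y k))
      = mass u b z ^ (m - 1) * (mass u b z - away u b H z x) := by
    intro k
    have e : (fun y : Fin m → T => (∏ i, b z (y i)) * H x (y k))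
        = fun y => ∏ i, (fun i t => if i = k then b z t * H x t else b z t) i (y i) := by
      funext y
      rw [← Finset.mul_prod_erase _ _ (Finset.mem_univ k),
        ← Finset.mul_prod_erase _ _ (Finset.mem_univ k), mul_right_comm]
      simp only [if_true]
      congr 1
      exact Finset.prod_congr rfl fun i hi => by rw [if_neg (Finset.ne_of_mem_erase hi)]
    rw [e]
    rw [avg_prod' m fun i t => if i = k then b z t * H x t else b z t]
    rw [← Finset.mul_prod_erase _ _ (Finset.mem_univ k)]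
    rw [Finset.prod_congr rfl (g := fun _ => mass u b z)
      (fun i hi => by simp only [if_neg (Finset.ne_of_mem_erase hi), mass]),
      Finset.prod_const, Finset.card_erase_of_mem (Finset.mem_univ k), Finset.card_univ,
      Fintype.card_fin, mul_comm]
    congr 1
    simp only [if_pos, mass, away, ← Finset.sum_sub_distrib]
    exact Finset.sum_congr rfl fun y _ => by ring
  rw [Finset.sum_congr rfl fun k _ => hk k, Finset.sum_const, Finset.card_univ, Fintype.card_fin,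
    nsmul_eq_mul]

end Identity

/-- The test expression, given a point `x` of the set. -/
noncomputable def dupX {T : Type*} [Fintype T] {N : ℕ} (a : ℕ → ℝ) (n : ℕ) (u : T → ℝ)
    (b : (Fin N → T) → T → ℝ) (H : T → T → ℝ) (c : ℝ) (z : Fin N → T) (x : T) : ℝ :=
  (((N : ℝ) + 1) * polyV a n (mass u b z) + mass u b z * polyD a n (mass u b z))
      * (∑ y, gibbs u y * H x y)
    - c * polyV a n (mass u b z) - polyD a n (mass u b z) * (mass u b z - away u b H z x)

theorem dupX_bound {T : Type*} [Fintype T] [Nonempty T] {u : T → ℝ} (hu : ∀ x, 0 < u x) {N : ℕ}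
    {b : (Fin (N + 1) → T) → T → ℝ} (hb : ∀ z y, b z y ∈ Icc (0 : ℝ) 1) {H : T → T → ℝ}
    (hH : ∀ x y, H x y ∈ Icc (0 : ℝ) 1) {c : ℝ} (hc : 0 ≤ c) (hc1 : c ≤ 1) (a : ℕ → ℝ) (n : ℕ)
    (z : Fin (N + 1) → T) (x : T) :
    |dupX a n u b H c z x| ≤ ((N : ℝ) + 4) * ∑ m ∈ Finset.range n, |a m| * ((m : ℝ) + 1) := by
  have hg0 := gibbs_nonneg' hu
  have hg1 := gibbs_sum' hu
  have hw0 : 0 ≤ mass u b z := Finset.sum_nonneg fun x _ => mul_nonneg (hg0 x) (hb z x).1
  have hw1 : mass u b z ≤ 1 := (Finset.sum_le_sum fun x _ =>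
    mul_le_of_le_one_right (hg0 x) (hb z x).2).trans_eq hg1
  have hv0 : 0 ≤ ∑ y, gibbs u y * H x y :=
    Finset.sum_nonneg fun y _ => mul_nonneg (hg0 y) (hH x y).1
  have hv1 : ∑ y, gibbs u y * H x y ≤ 1 := (Finset.sum_le_sum fun y _ =>
    mul_le_of_le_one_right (hg0 y) (hH x y).2).trans_eq hg1
  have he0 : 0 ≤ away u b H z x := Finset.sum_nonneg fun y _ =>
    mul_nonneg (hg0 y) (mul_nonneg (hb z y).1 (sub_nonneg.2 (hH x y).2))
  have hew : away u b H z x ≤ mass u b z := Finset.sum_le_sum fun y _ => mul_le_mul_of_nonneg_left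
    (mul_le_of_le_one_right (hb z y).1 (by linarith [(hH x y).1])) (hg0 y)
  set S := ∑ m ∈ Finset.range n, |a m| * ((m : ℝ) + 1)
  have hp : ∀ j : ℕ, |mass u b z ^ j| ≤ 1 := fun j => by
    rw [abs_pow, abs_of_nonneg hw0]; exact pow_le_one₀ hw0 hw1
  have hV : |polyV a n (mass u b z)| ≤ S := (Finset.abs_sum_le_sum_abs _ _).trans
    (Finset.sum_le_sum fun m _ => by
      rw [abs_mul]
      exact mul_le_mul_of_nonneg_left ((hp m).trans (by linarith [Nat.cast_nonneg (α := ℝ) m]))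
        (abs_nonneg _))
  have hD : |polyD a n (mass u b z)| ≤ S := (Finset.abs_sum_le_sum_abs _ _).trans
    (Finset.sum_le_sum fun m _ => by
      rw [abs_mul, abs_mul, Nat.abs_cast]
      refine mul_le_mul_of_nonneg_left ?_ (abs_nonneg _)
      exact (mul_le_of_le_one_right (Nat.cast_nonneg m) (hp _)).trans (by linarith))
  set v := ∑ y, gibbs u y * H x y
  have e : dupX a n u b H c z x = ((((N + 1 : ℕ) : ℝ) + 1) * v - c) * polyV a n (mass u b z)
      + (mass u b z * v - (mass u b z - away u b H z x)) * polyD a n (mass u b z) := by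
    simp only [dupX, v]; ring
  rw [e]
  refine (abs_add_le _ _).trans ?_
  rw [abs_mul, abs_mul]
  have k1 : |(((N + 1 : ℕ) : ℝ) + 1) * v - c| ≤ (N : ℝ) + 2 := by
    push_cast
    rw [abs_le]
    constructor <;> nlinarith [Nat.cast_nonneg (α := ℝ) N]
  have k2 : |mass u b z * v - (mass u b z - away u b H z x)| ≤ 2 := by
    rw [abs_le]; constructor <;> nlinarith
  nlinarith [mul_le_mul k1 hV (abs_nonneg _) (by positivity),
    mul_le_mul k2 hD (abs_nonneg _) zero_le_two]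

theorem swap_sums {ι : Type*} [Fintype ι] (n : ℕ) (a A : ℕ → ℝ) (c : ℝ) (p q r : ℕ → ι → ℝ) :
    ∑ m ∈ Finset.range n, a m * (A m * ∑ x, p m x - c * ∑ x, q m x - ∑ x, r m x)
      = ∑ x, ∑ m ∈ Finset.range n, a m * (A m * p m x - c * q m x - r m x) := by
  rw [Finset.sum_comm (t := Finset.range n)]
  simp only [mul_sub, Finset.mul_sum, Finset.sum_sub_distrib]

theorem dup_identity {T Ω : Type*} [Fintype T] [Nonempty T] [MeasurableSpace Ω] {μ : Measure Ω}
    [IsProbabilityMeasure μ] {u : Ω → T → ℝ} (hm : ∀ x, Measurable fun ω => u ω x)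
    (hp : ∀ ω x, 0 < u ω x) {N : ℕ} {b : (Fin N → T) → T → ℝ} {H : T → T → ℝ}
    (hb : ∀ z y, b z y ∈ Icc (0 : ℝ) 1) (hvan : ∀ z y l, b z y ≠ 0 → H y (z l) = 0) {ε : ℝ}
    (hgg : ∀ r (F : (Fin (r + 1) → T) → ℝ), (∀ y, |F y| ≤ 1) → |ggDef μ u H r F| ≤ ε)
    (a : ℕ → ℝ) (n : ℕ) :
    |∫ ω, avg (u ω) N (fun z => ∑ x, gibbs (u ω) x * b z x
        * dupX a n (u ω) b H (eavg μ u 2 fun y => H (y 0) (y 1)) z x) ∂μ|
      ≤ (∑ m ∈ Finset.range n, |a m| * ((N : ℝ) + m + 1)) * ε := by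
  set c := eavg μ u 2 fun y => H (y 0) (y 1) with hc
  have hsplit : ∀ ω, avg (u ω) N (fun z => ∑ x, gibbs (u ω) x * b z x * dupX a n (u ω) b H c z x)
      = ∑ m ∈ Finset.range n, a m * (((N : ℝ) + m + 1) * avg (u ω) (N + m + 2)
            (fun x => dupF b m (fun i => x i.castSucc) * H (x 0) (x (Fin.last (N + m + 1))))
          - c * avg (u ω) (N + m + 1) (dupF b m)
          - ∑ l : Fin (N + m), avg (u ω) (N + m + 1)
              (fun x => dupF b m x * H (x 0) (x l.succ))) := by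
    intro ω
    simp only [avg_dupF, avg_dupF_new, avg_dupF_sum b H hvan, ← avg_smul', ← avg_sub', ← avg_sum']
    refine congrArg (avg (u ω) N) (funext fun z => ?_)
    rw [swap_sums]
    refine Finset.sum_congr rfl fun x _ => ?_
    rw [dupX]
    generalize (∑ y, gibbs (u ω) y * H x y) = v
    simp only [polyV, polyD, Finset.mul_sum, Finset.sum_mul, ← Finset.sum_add_distrib,
      ← Finset.sum_sub_distrib]
    refine Finset.sum_congr rfl fun m _ => ?_
    rcases Nat.eq_zero_or_pos m with rfl | hm0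
    · simp; ring
    · obtain ⟨m', rfl⟩ := Nat.exists_eq_succ_of_ne_zero hm0.ne'
      simp only [Nat.succ_eq_add_one, Nat.add_sub_cancel, pow_succ, Nat.cast_add, Nat.cast_one]
      ring
  simp only [hsplit]
  rw [integral_finsetSum _ fun m _ => ?_]
  swap
  · exact ((((integrable_avg' hm hp _ _).const_mul _).sub
      ((integrable_avg' hm hp _ _).const_mul _)).sub
      (integrable_finsetSum _ fun l _ => integrable_avg' hm hp _ _)).const_mul _
  refine (Finset.abs_sum_le_sum_abs _ _).trans ?_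
  rw [Finset.sum_mul]
  refine Finset.sum_le_sum fun m _ => ?_
  rw [integral_const_mul, abs_mul, mul_assoc]
  refine mul_le_mul_of_nonneg_left ?_ (abs_nonneg _)
  rw [integral_sub _ (integrable_finsetSum _ fun l _ => integrable_avg' hm hp _ _),
    integral_sub ((integrable_avg' hm hp _ _).const_mul _) ((integrable_avg' hm hp _ _).const_mul _),
    integral_const_mul, integral_const_mul,
    integral_finsetSum _ fun l _ => integrable_avg' hm hp _ _]
  swap
  · exact ((integrable_avg' hm hp _ _).const_mul _).sub ((integrable_avg' hm hp _ _).const_mul _)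
  have hF : ∀ x, |dupF b m x| ≤ 1 := fun x => by
    rw [dupF, abs_mul, Finset.abs_prod]
    refine mul_le_one₀ ?_ (Finset.prod_nonneg fun i _ => abs_nonneg _) ?_
    · rw [abs_of_nonneg (hb _ _).1]; exact (hb _ _).2
    · exact Finset.prod_le_one (fun i _ => abs_nonneg _) fun i _ => by
        rw [abs_of_nonneg (hb _ _).1]; exact (hb _ _).2
  have h := hgg (N + m) (dupF b m) hF
  rw [ggDef] at h
  simp only [eavg, Nat.cast_add] at h hc
  rw [← hc] at h
  have hpos : (0 : ℝ) < (N : ℝ) + m + 1 := by positivity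
  calc _ = |((N : ℝ) + m + 1) * ((∫ ω, avg (u ω) (N + m + 2)
          (fun x => dupF b m (fun i => x i.castSucc) * H (x 0) (x (Fin.last (N + m + 1)))) ∂μ)
        - ((∫ ω, avg (u ω) (N + m + 1) (dupF b m) ∂μ) * c + ∑ l : Fin (N + m),
            ∫ ω, avg (u ω) (N + m + 1) (fun x => dupF b m x * H (x 0) (x l.succ)) ∂μ)
          / ((N : ℝ) + m + 1))| := by
        congr 1; field_simp; ring
    _ ≤ _ := by
        rw [abs_mul, abs_of_pos hpos]
        exact mul_le_mul_of_nonneg_left h hpos.le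

theorem integral_mono_of_bound {Ω : Type*} [MeasurableSpace Ω] {μ : Measure Ω}
    [IsProbabilityMeasure μ] {f g h : Ω → ℝ} (hf : Integrable f μ) (hg : Integrable g μ)
    (hh : Integrable h μ) {A D E C : ℝ}
    (hle : ∀ ω, A * (2 * D * f ω - D ^ 2) - E - C * g ω ≤ h ω) :
    A * (2 * D * (∫ ω, f ω ∂μ) - D ^ 2) - E - C * ∫ ω, g ω ∂μ ≤ ∫ ω, h ω ∂μ := by
  have i0 : Integrable (fun ω => A * (2 * D * f ω - D ^ 2) - E) μ :=
    (((hf.const_mul (2 * D)).sub (integrable_const (D ^ 2))).const_mul A).sub (integrable_const E)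
  have e0 : ∫ ω, (A * (2 * D * f ω - D ^ 2) - E - C * g ω) ∂μ
      = (∫ ω, (A * (2 * D * f ω - D ^ 2) - E) ∂μ) - ∫ ω, C * g ω ∂μ :=
    integral_sub i0 (hg.const_mul C)
  have e1 : ∫ ω, (A * (2 * D * f ω - D ^ 2) - E) ∂μ
      = (∫ ω, A * (2 * D * f ω - D ^ 2) ∂μ) - ∫ _, E ∂μ :=
    integral_sub (((hf.const_mul (2 * D)).sub (integrable_const (D ^ 2))).const_mul A)
      (integrable_const E)
  have e2 : ∫ ω, (2 * D * f ω - D ^ 2) ∂μ = (∫ ω, 2 * D * f ω ∂μ) - ∫ _, D ^ 2 ∂μ :=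
    integral_sub (hf.const_mul (2 * D)) (integrable_const (D ^ 2))
  refine le_trans (le_of_eq ?_) (integral_mono (i0.sub (hg.const_mul C)) hh hle)
  simp only [Pi.sub_apply]
  rw [e0, e1, integral_const_mul, integral_const_mul, e2, integral_const_mul]
  simp

theorem dup_point {w v e c θ C M g g' V D : ℝ} (hw0 : 0 ≤ w) (hw1 : w ≤ 1) (hv0 : 0 ≤ v)
    (hv1 : v ≤ 1) (he0 : 0 ≤ e) (hew : e ≤ w) (hve : w - e ≤ v) (hc0 : 0 ≤ c) (hc1 : c ≤ 1)
    (hM : 1 ≤ M) (hV : |V - g| ≤ θ) (hD : |D - g'| ≤ θ) (hpos : 0 ≤ M * g + w * g')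
    (hC : M * g + w * g' - g' ≤ C) :
    -(c * g + w * g' - (M * g + w * g') * w) - (M + 3) * θ - C * e
      ≤ (M * V + w * D) * v - c * V - D * (w - e) := by
  have q1 := mul_le_mul_of_nonneg_left hve hpos
  have hθ : 0 ≤ θ := (abs_nonneg _).trans hV
  have h1 : |M * v - c| ≤ M + 1 := by
    have := mul_le_of_le_one_right (zero_le_one.trans hM) hv1
    have := mul_nonneg (zero_le_one.trans hM) hv0
    rw [abs_le]; constructor <;> linarith
  have h2 : |w * v - (w - e)| ≤ 2 := by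
    have := mul_le_one₀ hw1 hv0 hv1
    have := mul_nonneg hw0 hv0
    rw [abs_le]; constructor <;> linarith
  have q2 := (neg_abs_le ((M * v - c) * (V - g)))
  have q3 := (neg_abs_le ((w * v - (w - e)) * (D - g')))
  rw [abs_mul] at q2 q3
  have q4 := mul_le_mul h1 hV (abs_nonneg _) (by linarith)
  have q5 := mul_le_mul h2 hD (abs_nonneg _) zero_le_two
  have q6 := mul_le_mul_of_nonneg_right hC he0
  nlinarith

/-- The lower bound of the test, averaged over the set. -/
theorem dup_low {T : Type*} [Fintype T] [Nonempty T] {u : T → ℝ} (hu : ∀ x, 0 < u x) {N : ℕ}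
    {b : (Fin (N + 1) → T) → T → ℝ} (hb : ∀ z y, b z y ∈ Icc (0 : ℝ) 1) {H : T → T → ℝ}
    (hH : ∀ x y, H x y ∈ Icc (0 : ℝ) 1) {η κ c θ p₀ : ℝ} (hη : 0 < η) (hη1 : η ≤ 1) (hc0 : 0 ≤ c)
    (hcκ : c ≤ κ) (hκ0 : 0 < κ) (hκ1 : κ ≤ 1) {a : ℕ → ℝ} {n : ℕ}
    (hpoly : ∀ w ∈ Icc (0 : ℝ) 1,
      |polyV a n w - negPow η κ w| ≤ θ ∧ |polyD a n w - negPow' η κ w| ≤ θ)
    (z : Fin (N + 1) → T) :
    (κ - c) / 4 * (2 * p₀ * mass u b z - p₀ ^ 2) - η ^ (1 - κ) - ((N : ℝ) + 5) * θ
      - (((N : ℝ) + 2) * (1 / η) + 2 * (1 / η) ^ 2)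
          * (∑ x, gibbs u x * b z x * away u b H z x)
      ≤ ∑ x, gibbs u x * b z x * dupX a n u b H c z x := by
  set C := ((N : ℝ) + 2) * (1 / η) + 2 * (1 / η) ^ 2 with hCdef
  set g := gibbs u with hg
  set w := mass u b z with hwdef
  set M := (N : ℝ) + 2 with hM
  have hg0 : ∀ x, 0 ≤ g x := gibbs_nonneg' hu
  have hg1 : ∑ x, g x = 1 := gibbs_sum' hu
  have hw0 : 0 ≤ w := Finset.sum_nonneg fun x _ => mul_nonneg (hg0 x) (hb z x).1
  have hw1 : w ≤ 1 := (Finset.sum_le_sum fun x _ =>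
    mul_le_of_le_one_right (hg0 x) (hb z x).2).trans_eq hg1
  obtain ⟨hv, hd⟩ := hpoly w ⟨hw0, hw1⟩
  have hθ : 0 ≤ θ := (abs_nonneg _).trans hv
  have hn := negPow_bound hη hη1 hκ0.le hκ1 hw0
  have hn' := negPow'_bound hη hη1 hκ0.le hκ1 hw0
  rw [abs_le] at hn'
  have hM1 : 1 ≤ M := by rw [hM]; linarith [Nat.cast_nonneg (α := ℝ) N]
  have hpos : 0 ≤ M * negPow η κ w + w * negPow' η κ w := by
    have e : (w + η) ^ (-κ) = (w + η) ^ (-κ - 1) * (w + η) := by
      conv_lhs => rw [show -κ = (-κ - 1) + 1 by ring]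
      rw [Real.rpow_add (by linarith), Real.rpow_one]
    have := Real.rpow_nonneg (by linarith : (0 : ℝ) ≤ w + η) (-κ - 1)
    rw [negPow, negPow', e]
    nlinarith [mul_nonneg this (mul_nonneg hw0 (show (0 : ℝ) ≤ M - κ by linarith)),
      mul_nonneg this (mul_nonneg hη.le (zero_le_one.trans hM1))]
  have hCb : M * negPow η κ w + w * negPow' η κ w - negPow' η κ w ≤ C := by
    have := mul_le_mul_of_nonneg_left hn.2 (zero_le_one.trans hM1)
    have := mul_le_mul_of_nonneg_left hn'.2 hw0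
    have := mul_le_mul_of_nonneg_right hw1 (sq_nonneg (1 / η))
    rw [hCdef]
    linarith [hn'.1]
  have hxpt : ∀ x, g x * b z x * (-(c * negPow η κ w + w * negPow' η κ w
        - (M * negPow η κ w + w * negPow' η κ w) * w) - (M + 3) * θ - C * away u b H z x)
      ≤ g x * b z x * dupX a n u b H c z x := by
    intro x
    refine mul_le_mul_of_nonneg_left ?_ (mul_nonneg (hg0 x) (hb z x).1)
    have he0 : 0 ≤ away u b H z x := Finset.sum_nonneg fun y _ =>
      mul_nonneg (hg0 y) (mul_nonneg (hb z y).1 (sub_nonneg.2 (hH x y).2))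
    have hv0 : 0 ≤ ∑ y, g y * H x y := Finset.sum_nonneg fun y _ => mul_nonneg (hg0 y) (hH x y).1
    have hv1 : ∑ y, g y * H x y ≤ 1 := (Finset.sum_le_sum fun y _ =>
      mul_le_of_le_one_right (hg0 y) (hH x y).2).trans_eq hg1
    have hew : away u b H z x ≤ w := Finset.sum_le_sum fun y _ => mul_le_mul_of_nonneg_left
      (mul_le_of_le_one_right (hb z y).1 (by linarith [(hH x y).1])) (hg0 y)
    have hve : w - away u b H z x ≤ ∑ y, g y * H x y := by
      rw [hwdef, mass, away, ← Finset.sum_sub_distrib]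
      refine Finset.sum_le_sum fun y _ => ?_
      rw [← mul_sub, ← hg]
      refine mul_le_mul_of_nonneg_left ?_ (hg0 y)
      linarith [mul_le_of_le_one_left (hH x y).1 (hb z y).2]
    have hMeq : ((N + 1 : ℕ) : ℝ) + 1 = M := by rw [hM]; push_cast; ring
    rw [dupX, hMeq, ← hg, ← hwdef]
    exact dup_point hw0 hw1 hv0 hv1 he0 hew hve hc0 (hcκ.trans hκ1) hM1 hv hd hpos hCb
  have hsum := Finset.sum_le_sum fun x (_ : x ∈ Finset.univ) => hxpt x
  have e1 : ∀ (A : ℝ) (B : T → ℝ), ∑ x, g x * b z x * (A - C * B x)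
      = A * w - C * ∑ x, g x * b z x * B x := by
    intro A B
    rw [hwdef, mass, Finset.mul_sum, Finset.mul_sum, ← Finset.sum_sub_distrib]
    exact Finset.sum_congr rfl fun x _ => by ring
  rw [e1] at hsum
  refine le_trans ?_ hsum
  have hkey := negPow_key (M := M) hη hη1 hcκ (hcκ.trans hκ1) hκ0 hκ1 hw0 hw1 hM1
  have h2 : (κ - c) / 4 * (2 * p₀ * w - p₀ ^ 2) ≤ (κ - c) / 4 * w ^ 2 :=
    mul_le_mul_of_nonneg_left (by linarith [sq_nonneg (w - p₀)]) (by linarith)
  have h3 : w * ((M + 3) * θ) ≤ 1 * ((M + 3) * θ) :=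
    mul_le_mul_of_nonneg_right hw1 (mul_nonneg (by linarith) hθ)
  rw [show ((N : ℝ) + 5) = M + 3 by rw [hM]; ring]
  linarith

theorem avg_mass_eq {T : Type*} [Fintype T] {u : T → ℝ} {N : ℕ}
    (b : (Fin N → T) → T → ℝ) :
    avg u N (fun z => mass u b z) = avg u (N + 1) (fun x => b (fun i => x i.succ) (x 0)) := by
  simp only [mass]
  rw [avg_cons', avg_sum']
  refine Finset.sum_congr rfl fun y _ => ?_
  rw [avg_smul']
  simp

theorem avg_away_eq {T : Type*} [Fintype T] {u : T → ℝ} {N : ℕ}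
    (b : (Fin N → T) → T → ℝ) (H : T → T → ℝ) :
    avg u N (fun z => ∑ x, gibbs u x * b z x * away u b H z x)
      = avg u (N + 2) (fun x => b (fun i => x i.succ.succ) (x 0) *
          (b (fun i => x i.succ.succ) (x 1) * (1 - H (x 0) (x 1)))) := by
  simp only [away]
  rw [avg_cons', avg_sum']
  refine Finset.sum_congr rfl fun x _ => ?_
  simp only [mul_assoc (gibbs u x), avg_smul']
  congr 1
  rw [avg_cons']
  simp only [Finset.mul_sum, avg_sum', mul_left_comm (b _ x), avg_smul']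
  refine Finset.sum_congr rfl fun y _ => ?_
  congr 1
  refine congrArg (avg u N) (funext fun z => ?_)
  simp only [← Fin.succ_zero_eq_one', Fin.cons_succ, Fin.cons_zero]
  ring

theorem dup_main {T Ω : Type*} [Fintype T] [Nonempty T] [MeasurableSpace Ω] {μ : Measure Ω}
    [IsProbabilityMeasure μ] {u : Ω → T → ℝ} (hm : ∀ x, Measurable fun ω => u ω x)
    (hp : ∀ ω x, 0 < u ω x) {N : ℕ} {b : (Fin (N + 1) → T) → T → ℝ}
    (hb : ∀ z y, b z y ∈ Icc (0 : ℝ) 1) {H : T → T → ℝ} (hH : ∀ x y, H x y ∈ Icc (0 : ℝ) 1)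
    (hvan : ∀ z y l, b z y ≠ 0 → H y (z l) = 0) {η θ ε p₀ : ℝ} (hη : 0 < η) (hη1 : η ≤ 1)
    (hp₀ : 0 < p₀) {a : ℕ → ℝ} {n : ℕ}
    (hpoly : ∀ w ∈ Icc (0 : ℝ) 1, |polyV a n w - negPow η (1 - p₀ / 2) w| ≤ θ ∧
      |polyD a n w - negPow' η (1 - p₀ / 2) w| ≤ θ)
    (hpk : p₀ ≤ eavg μ u (N + 2) fun x => b (fun i => x i.succ) (x 0))
    (hgg : ∀ r (F : (Fin (r + 1) → T) → ℝ), (∀ y, |F y| ≤ 1) → |ggDef μ u H r F| ≤ ε) :
    p₀ ^ 3 / 8 - η ^ (p₀ / 2) - ((N : ℝ) + 5) * θ
      - (∑ m ∈ Finset.range n, |a m| * (((N + 1 : ℕ) : ℝ) + m + 1)) * ε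
      ≤ (((N : ℝ) + 2) * (1 / η) + 2 * (1 / η) ^ 2) * eavg μ u (N + 3) fun x =>
          b (fun i => x i.succ.succ) (x 0) * (b (fun i => x i.succ.succ) (x 1)
            * (1 - H (x 0) (x 1))) := by
  set c := eavg μ u 2 fun y => H (y 0) (y 1) with hcdef
  set C := ((N : ℝ) + 2) * (1 / η) + 2 * (1 / η) ^ 2
  have hp1 : p₀ ≤ 1 := hpk.trans (le_of_abs_le
    (abs_eavg' (μ := μ) hm hp fun x => by
      rw [abs_of_nonneg (hb _ _).1]; exact (hb _ _).2))
  have hc0 : 0 ≤ c := by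
    rw [hcdef, ← eavg_const' (μ := μ) hp 2 (0 : ℝ)]
    exact eavg_mono' hm hp fun x => (hH _ _).1
  have hc : c ≤ 1 - p₀ := by
    have h1 : eavg μ u (N + 2) (fun x => b (fun i => x i.succ) (x 0)) ≤ 1 - c := by
      refine (eavg_mono' hm hp (H := fun x => 1 - H (x 0) (x 1)) fun x => ?_).trans_eq ?_
      · by_cases h : b (fun i => x i.succ) (x 0) = 0
        · rw [h]; linarith [(hH (x 0) (x 1)).2]
        · rw [show H (x 0) (x 1) = 0 from hvan _ _ 0 h, sub_zero]; exact (hb _ _).2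
      · rw [eavg_sub' hm hp, eavg_const' hp]
        congr 1
        exact integral_congr_ae (Eventually.of_forall fun ω => avg_two' (hp ω) N H)
    linarith
  have hid := dup_identity (μ := μ) hm hp hb hvan hgg a n
  rw [← hcdef] at hid
  have i1 := integrable_avg' (μ := μ) hm hp (N + 2) (fun x => b (fun i => x i.succ) (x 0))
  have i2 := integrable_avg' (μ := μ) hm hp (N + 3) (fun x => b (fun i => x i.succ.succ) (x 0) *
        (b (fun i => x i.succ.succ) (x 1) * (1 - H (x 0) (x 1))))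
  have i3 : Integrable (fun ω => avg (u ω) (N + 1) fun z =>
      ∑ x, gibbs (u ω) x * b z x * dupX a n (u ω) b H c z x) μ := by
    refine Integrable.of_bound (C := ((N : ℝ) + 4) * (∑ m ∈ Finset.range n, |a m| * ((m : ℝ) + 1)))
      ?_ (Eventually.of_forall fun ω => ?_)
    · refine Measurable.aestronglyMeasurable ?_
      have hg : ∀ x, Measurable fun ω => gibbs (u ω) x := fun x =>
        (hm x).div (Finset.measurable_sum _ fun y _ => hm y)
      simp only [avg, dupX, mass, away, polyV, polyD]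
      fun_prop
    · refine abs_avg' (hp ω) fun z => ?_
      have hg0 := gibbs_nonneg' (hp ω)
      refine (Finset.abs_sum_le_sum_abs _ _).trans ((Finset.sum_le_sum fun x _ => ?_).trans_eq
        (by rw [← Finset.sum_mul, gibbs_sum' (hp ω), one_mul]))
      rw [abs_mul, abs_mul, abs_of_nonneg (hg0 x), abs_of_nonneg (hb z x).1]
      exact mul_le_mul (mul_le_of_le_one_right (hg0 x) (hb z x).2)
        (dupX_bound (hp ω) hb hH hc0 (by linarith) a n z x) (abs_nonneg _) (hg0 x)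
  have hA := integral_mono_of_bound (μ := μ) i1 i2 i3 (A := (1 - p₀ / 2 - c) / 4)
    (D := p₀) (E := η ^ (1 - (1 - p₀ / 2)) + ((N : ℝ) + 5) * θ) (C := C) fun ω => by
      refine le_trans ?_ (avg_mono' (hp ω) (dup_low (p₀ := p₀) (hp ω) hb hH hη hη1 hc0 (by linarith)
        (by linarith) (by linarith) hpoly))
      simp only [avg_sub', avg_smul', avg_const' (hp _), avg_mass_eq, avg_away_eq]
      linarith
  have hmain := hA.trans ((le_abs_self _).trans hid)
  have h4 : p₀ ^ 3 / 8 ≤ (1 - p₀ / 2 - c) / 4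
      * (2 * p₀ * eavg μ u (N + 2) (fun x => b (fun i => x i.succ) (x 0)) - p₀ ^ 2) := by
    have e1 := mul_le_mul_of_nonneg_left hpk hp₀.le
    have e2 := mul_le_mul (show p₀ / 2 ≤ 1 - p₀ / 2 - c by linarith)
      (show p₀ ^ 2 ≤ 2 * p₀ * eavg μ u (N + 2) (fun x => b (fun i => x i.succ) (x 0)) - p₀ ^ 2 by
        linarith) (sq_nonneg _) (by linarith)
    linarith
  rw [show (1 : ℝ) - (1 - p₀ / 2) = p₀ / 2 by ring] at hmain
  unfold eavg at h4 ⊢
  linarith

/-- Duplication: a point of positive probability can be doubled, with the two copies apart. -/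
theorem dup_step {T Ω : ℕ → Type} [∀ k, Fintype (T k)] [∀ k, Nonempty (T k)]
    [∀ k, MeasurableSpace (Ω k)] {μ : ∀ k, Measure (Ω k)} [∀ k, IsProbabilityMeasure (μ k)]
    {u : ∀ k, Ω k → T k → ℝ} (hm : ∀ k x, Measurable fun ω => u k ω x)
    (hp : ∀ k ω x, 0 < u k ω x) {H : ∀ k, T k → T k → ℝ} (hgg : GGSeq μ u H)
    (hH : ∀ k x y, H k x y ∈ Icc (0 : ℝ) 1) {N : ℕ}
    (b : ∀ k, (Fin (N + 1) → T k) → T k → ℝ) (hb : ∀ k z y, b k z y ∈ Icc (0 : ℝ) 1)
    (hvan : ∀ k z y l, b k z y ≠ 0 → H k y (z l) = 0) {p₀ : ℝ} (hp₀ : 0 < p₀)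
    (hfr : ∃ᶠ k in atTop,
      p₀ ≤ eavg (μ k) (u k) (N + 2) fun x => b k (fun i => x i.succ) (x 0)) :
    ∃ q₀ > (0 : ℝ), ∃ᶠ k in atTop, q₀ ≤ eavg (μ k) (u k) (N + 3) fun x =>
      b k (fun i => x i.succ.succ) (x 0) * (b k (fun i => x i.succ.succ) (x 1)
        * (1 - H k (x 0) (x 1))) := by
  obtain ⟨η, hη, hη1, hηp⟩ : ∃ η : ℝ, 0 < η ∧ η ≤ 1 ∧ η ^ (p₀ / 2) ≤ p₀ ^ 3 / 32 := by
    have hb0 : (0 : ℝ) < p₀ ^ 3 / 32 := by positivity
    refine ⟨min 1 ((p₀ ^ 3 / 32) ^ (1 / (p₀ / 2))), lt_min one_pos (Real.rpow_pos_of_pos hb0 _),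
      min_le_left _ _, ?_⟩
    refine (Real.rpow_le_rpow (le_min zero_le_one (Real.rpow_nonneg hb0.le _))
      (min_le_right _ _) (by positivity)).trans_eq ?_
    rw [← Real.rpow_mul hb0.le, one_div_mul_cancel (by positivity), Real.rpow_one]
  set C := ((N : ℝ) + 2) * (1 / η) + 2 * (1 / η) ^ 2
  have hC : 0 < C := by positivity
  set θ := p₀ ^ 3 / (128 * ((N : ℝ) + 5)) with hθdef
  obtain ⟨a, n, hpoly⟩ := exists_poly_near (g := negPow η (1 - p₀ / 2))
    (g' := negPow' η (1 - p₀ / 2)) (fun w hw => hasDerivAt_negPow (by linarith [hw.1]))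
    (by
      unfold negPow'
      exact continuousOn_const.mul ((by fun_prop : Continuous fun w : ℝ => w + η).continuousOn.rpow_const
        fun w hw => Or.inl (by linarith [hw.1] : (0 : ℝ) < w + η).ne'))
    (show 0 < θ by positivity)
  set Ca := ∑ m ∈ Finset.range n, |a m| * (((N + 1 : ℕ) : ℝ) + m + 1)
  have hCa : 0 ≤ Ca := by positivity
  refine ⟨p₀ ^ 3 / (32 * C), by positivity, ?_⟩
  refine (hfr.and_eventually (hgg (p₀ ^ 3 / (128 * (Ca + 1))) (by positivity))).mono ?_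
  rintro k ⟨hpk, hgk⟩
  have h := dup_main (μ := μ k) (hm k) (hp k) (hb k) (hH k) (hvan k) hη hη1 hp₀ hpoly hpk hgk
  have hCa' : Ca * (p₀ ^ 3 / (128 * (Ca + 1))) ≤ p₀ ^ 3 / 128 := by
    rw [← mul_div_assoc, div_le_div_iff₀ (by positivity) (by norm_num)]
    linarith [pow_pos hp₀ 3, mul_nonneg hCa (pow_pos hp₀ 3).le]
  have hθe : ((N : ℝ) + 5) * θ = p₀ ^ 3 / 128 := by rw [hθdef]; field_simp
  rw [hθe] at h
  change p₀ ^ 3 / 8 - η ^ (p₀ / 2) - p₀ ^ 3 / 128 - Ca * (p₀ ^ 3 / (128 * (Ca + 1))) ≤ C * _ at h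
  rw [div_le_iff₀ (by positivity)]
  generalize (eavg (μ k) (u k) (N + 3) _) = Q at h ⊢
  generalize Ca * (p₀ ^ 3 / (128 * (Ca + 1))) = A at h hCa'
  nlinarith [pow_pos hp₀ 3]

end Vale.Agent.P157.Casc
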